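import Crest.Agent.X212.Taf6.TkA
import Crest.Agent.X212.Qab60.Hol
import Crest.Agent.X212.Cqn41.Nr0

/-!
# Row 212, H-TAK (helper6): the abelian part with one free coordinate
-/

set_option autoImplicit false
set_option linter.unusedSectionVars false
noncomputable section
open scoped Manifold ContDiff Topology InnerProductSpace
open MeasureTheory Set Function Filter
open Crest.Agent.R208.F (Ext)

namespace Crest.Agent.X212.Taf6
open An Sob92 Num57 Prm93 Qab60 Nd18 M Rf65 G75 Nr41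
open Dr59 (dM df pm)
open Cyf70 (IC)
open Fin37 (Pm)

variable {Wi : Type} {X : Mf 4} {A κ lam : Type} [Fintype A] [Fintype κ] [Fintype lam]
  [DecidableEq lam] {M : Mark X A κ} {W : World M} {N : ML M lam} {Λ : Lns W N}
  {A' h : Type} [Fintype A'] [DecidableEq A'] [Fintype h] {r n : ℕ}
  {J : Job Wi Λ A' h r n} {c : M.Cl} {R : A} {ν : Type} [Fintype ν] [DecidableEq ν]
  {Q : QT (W.Z c).E (W.Z c).M ν} {θ : (J.xs R).Y.M → Circle} {ϖ : (J.xs R).Y.M → V3}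

theorem tak (H : JQ J c R Q θ ϖ) : ∃ d > (0 : ℝ), ∀ β, OpB J β → ∀ q σ s f a k, Ball β 0 q →
    Cz (W.Z c).I (oI W c R) f → HasCompactSupport f → ASj J c R q s f a → Fi J R s σ k →
    (∀ t ∈ Ioo (0 : ℝ) 1, Pm J c (update s k t)) → ∀ Hf : ℝ → ℝ,
    (∀ t ∈ Ioo (0 : ℝ) 1, Hv J c R θ ϖ q (update s k t) f (Hf t)) → deriv Hf (s k) ≠ 0 →
    TAk J c R q s σ d (f + dM (W.Z c).I a) := by
  by_cases hp : PR (J.xs R).D.F θ ϖ
  swap
  · exact ⟨1, one_pos, fun _ _ _ _ s _ _ _ _ _ _ _ _ _ _ _ _ ha => (hp (H.qe s ha).pr).elim⟩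
  have hD := (H.ok.xs R).1.yd
  obtain ⟨V, V0, d, d0, hV, hN⟩ := endS _ θ ϖ hD hp
  refine ⟨d, d0, fun β hβ q σ s f a k hq hf hc has hk hP Hf hH hd ha => ⟨k, hk, fun w hw => ?_⟩⟩
  have := openPos (J.G c s).F.toPre
  have hs := hk.2.2
  have nb := Ioo_mem_nhds hs.1 hs.2
  have qe := H.qe s ha
  obtain ⟨j, hj⟩ := hβ.2 q.support
  have op := fun t ht => hj q (ball_le hq Finset.Subset.rfl).le c _ (hP t ht)
  have fa := fa_J (S := q.support) H.ok ha.2.2.1 (θ := update s k) (a := fun _ => q) isOpen_Ioo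
    (contDiff_update _ _ _).contDiffOn (fun _ => contDiffOn_const)
    (fun t ht => Pm.memO H.ok (hP t ht)) qe.pc op
  obtain ⟨T₀, ab⟩ := H.exists_abv q.support hc
  have cf := hf.add_d qe.cl has.fo has.off
  have sq := (sq_of_hcs (F := (J.G c s).F) hf.fo.sm hc).add has.sq
  obtain ⟨u, hu⟩ := sq.exists
  have us : ∀ b, aO (Cht98.wFam Λ J.m c (J.Θ s) (fun t => J.Θ (update s k t)) (Ioo 0 1) univ univ)
      (fun t => aF c J q.support q (update s k t)) (s k) b = aE J c q s b := fun b => by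
    change aE J c q (update s k (s k)) b = _
    rw [update_eq_self]
  have is := fun t (ht : t ∈ Ioo (0 : ℝ) 1) => (is_AO fa ht cf.fo cf.off hu).1
  have dr := der fa nb (hu.π_eq qe.cl cf.off) ((is _ hs).unique (Is.zero.congr (.of_forall fun x =>
    (indicator_apply_eq_zero.2 fun hx => by rw [us]; exact sub_eq_zero.2 (has.eq x hx)).symm)))
  obtain ⟨u', d1, -⟩ := dr 0
  have iw : Is (J.G c s).F.toPre 0 _ u' w := is_der d1 (mem_of_superset nb is) fun z => by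
    by_cases hz : z ∈ oI W c R
    · simp only [indicator_of_mem hz]
      exact hw.der z hz
    · simp only [indicator_of_notMem hz, hw.off z hz]
      exact hasDerivAt_const _ _
  have ph : PH _ (J.B c).o 0 u' = u' := ((PH _ _ 0).hasFDerivAt.comp_hasDerivAt _ d1).unique
    (d1.congr_of_eventuallyEq (mem_of_superset nb fun t ht =>
      (fa.AO_mem ht (hu.π_eq qe.cl cf.off)).1))
  have sd : ∀ z, Num57.hs (J.G c s).F (J.B c).o z (w z) = w z := congrFun
    ((Continuous.ae_eq_iff_eq (J.G c s).F.μ (qe.tam.cb_hs.choose_spec.1.clm_apply hw.sm).continuous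
      hw.sm.continuous).1 ((qe.tam.is_PH iw).symm.trans (ph.symm ▸ iw)))
  have w0 : ∀ x, T₀ < (kI J c R s ha).tm x → w x = 0 := fun x hx => by
    have x0 := ab.T0.trans_lt hx
    obtain ⟨y, hy, rfl⟩ := (qe.img (Subset.refl (Ioi 0))).ge x0
    refine (hw.der _ (qe.mem x0)).unique ((hasDerivAt_const _ (Num57.hs (J.xs R).D.Z (J.xs R).D.B.o y
      (Qab60.c2 (J.xs R).D.Z (pm (IC (J.xs R).Y.I) (W.Z c).I (kI J c R s ha).ψ (f + dM (W.Z c).I a))
        y))).congr_of_eventuallyEq (mem_of_superset nb fun t ht => ?_))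
    have ha' := H.act (hP t ht)
    simp only [mem_ofPred_eq, aE, (ab.z s ha _ hx).2, sub_zero]
    rw [H.ψ_eq ha ha' hy, ← (H.en ha').hs_eq hy.2, ← (H.en ha').c2_pm hy.2]
    exact congrArg _ (Loc8.c2_congr (H.pm_eq ha' ha _ hy))
  have asd : ∀ {T₁ b}, T₀ ≤ T₁ → Fo (W.Z c).I 1 b → Sq (J.G c s).F (dM (W.Z c).I b) →
      (∀ x, T₁ < (kI J c R s ha).tm x → aE J c q s (dM (W.Z c).I b) x = 0) →
      Asd (J.xs R).D T₁ (pm (IC (J.xs R).Y.I) (W.Z c).I (kI J c R s ha).ψ b) :=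
    fun p1 b1 b2 e => qe.asd (ab.T0.trans p1) b1 b2 fun x hx => by
      simpa only [aE, (ab.z s ha _ (p1.trans_lt hx)).2, sub_zero] using e x hx
  have key : ∀ T₁ χ, T₀ ≤ T₁ → Ct T₁ χ → ∃ Λ₀ : HK (J.G c s).F 0 →L[ℝ] ℝ, Λ₀ u' ≠ 0 ∧ ∀ y b,
      Fo (W.Z c).I 1 b → Isf (J.G c s).F ((fa.L (s k)).inverse (fa.pc.pr y)).1 (dM (W.Z c).I b) →
      Λ₀ y = -2 * hpr (J.xs R).D ϖ χ (pm (IC (J.xs R).Y.I) (W.Z c).I (kI J c R s ha).ψ b) := by
    intro T₁ χ p1 kχ
    have k0 := kχ.mono (ab.T0.trans p1)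
    have hη := qe.ok.cη false
    obtain ⟨v, hv⟩ := (sq_of_hcs (F := (J.G c s).F) (qe.cz_ec k0 hη).1.sm (qe.cz_ec k0 hη).2).exists
    let ℓ : HK (J.G c s).F 0 →L[ℝ] ℝ :=
      innerSL ℝ (PH (J.G c s).F (J.B c).o 0 v - PH (J.G c s).F (ng (J.B c).o) 0 v)
    have hℓ : ∀ u b, Fo (W.Z c).I 2 b → Isf (J.G c s).F u b →
        ℓ u = 2 * hl (kI J c R s ha) (oI W c R) χ (Q.η false) b := fun u b hb hu => by
      rw [hl, ← qe.tam.Bw_eq hu hv hb.dg, Bw, ← inner_sub_right, real_inner_comm]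
      rfl
    obtain ⟨u'', d1', d2⟩ := dr ℓ
    obtain rfl := d1.unique d1'
    refine ⟨ℓ ∘L (KK _ _).subtypeL ∘L (fa.L (s k)).inverse ∘L fa.pc.pr, fun e => hd ?_,
      fun y b b1 b2 => by rw [H.hpr_hl k0 b1 ha ha false, neg_mul_neg]; exact hℓ _ _ b1.d b2⟩
    replace d2 := d2.congr_deriv (neg_eq_zero.2 e)
    refine (((d2.div_const 2).add_const (hl (kI J c R s ha) (oI W c R) χ (Q.η false)
      (dM (W.Z c).I a))).neg.div_const V |>.congr_of_eventuallyEq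
      (mem_of_superset nb fun t ht => ?_)).deriv.trans (by simp)
    obtain ⟨b, hb⟩ := (fa.pcG ht).exists_as (op t ht) q4 cf ((fa.cp ht).sq sq)
    have e1 := (H.hv_hl hβ hq (hP t ht) hf hc ab Finset.Subset.rfl (kχ.mono p1)
      (hb.shift has.fo has.off ((fa.cp ht).sq has.sq)) ha false).1 (hH t ht)
    rw [hV _ _ kχ.cf, has.fo.d_add hb.fo, (H.en ha).hl_add k0 hη has.fo.d hb.fo.d] at e1
    refine (eq_div_iff V0).2 (e1.symm.trans (.trans ?_ (congrArg (fun x => -(x / 2 + _))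
      (hℓ _ _ hb.fo.d (fa.isf_sol ht cf hu hb)).symm)))
    ring
  refine ⟨fun T g hg => ?_, fun b τ b1 b2 b3 b4 e => ?_⟩
  · obtain ⟨χ, kχ⟩ := exists_ct (max T T₀)
    obtain ⟨Λ₀, l0, l1⟩ := key _ χ (le_max_right _ _) kχ
    have z : ∀ τ : ℝ, ∀ x, max T T₀ < (kI J c R s ha).tm x → (g - τ • w) x = 0 := fun τ x hx => by
      rw [Pi.sub_apply, Pi.smul_apply, w0 x ((le_max_right _ _).trans_lt hx), smul_zero, sub_zero]
      exact by_contra fun e => ((le_max_left _ _).trans_lt hx).not_ge (hg.off x e).2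
    have of : Off (oI W c R) g := fun x hx => by_contra fun e => hx (hg.off x e).1
    obtain ⟨y, hy⟩ : ∃ y, Is (J.G c s).F.toPre 0 (triv _ _) y g := ⟨_, Is.toH ⟨g, hg.sm,
      .intro (qe.cpt T) fun x hx => by_contra fun e => hx (hg.off x e), fun _ => rfl⟩⟩
    obtain ⟨b, b1, b2, b3, b4⟩ := solve fa hs (hg.sm.sub (sm_csmul (Λ₀ y / Λ₀ u') hw.sm))
      (.intro (qe.cpt (max T T₀)) fun x hx => by_contra fun e => hx ⟨by_contra fun m =>
        e ((of.sub (hw.off.smul _)) x m), le_of_not_gt fun m => e (z _ x m)⟩)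
      (fun x => (map_sub _ _ _).trans (congrArg₂ _ (hg.sd x) ((map_smul _ _ _).trans
        (congrArg _ (sd x))))) (of.sub (hw.off.smul _)) (hy.sub (iw.smul _))
    rw [us] at b4
    have p0 := ab.T0.trans (le_max_right T T₀)
    have nf := hN _ _ χ (asd (le_max_right _ _) b1 b3.memLp fun x hx =>
      (b4 x (qe.mem (p0.trans_lt hx))).trans (z _ x hx)) kχ.cf
    rw [(mul_eq_zero.1 ((l1 _ b b1 b3).symm.trans ((Λ₀.map_sub _ _).trans (sub_eq_zero.2
      ((Λ₀.map_smul _ _).trans (div_mul_cancel₀ _ l0)).symm)))).resolve_left (by norm_num),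
      zero_div] at nf
    obtain ⟨b', T', c1, c2, c3, c4⟩ := fix qe.toEn (by linarith) b1 b2 nf
    exact ⟨b', _, ⟨c1, c2, T', c4⟩, fun x hx => by rw [c3, b4 x hx]; exact sub_add_cancel _ _⟩
  · obtain ⟨χ, kχ⟩ := exists_ct T₀
    obtain ⟨Λ₀, l0, l1⟩ := key _ χ le_rfl kχ
    obtain ⟨y, hy⟩ := b4.exists
    have e1 : (fa.L (s k)).inverse (fa.pc.pr (-τ • u')) = ⟨y, mem_KK b1 b2 hy⟩ := by
      have i := (is_AO fa hs b1.d (b2.d qe.cl) hy).1
      rw [us] at i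
      refine (fa.inv hs).inverse_apply_eq.2 (congrArg fa.pc.pr
        (((iw.smul (-τ)).congr (.of_forall fun x => ?_)).unique i))
      by_cases hx : x ∈ oI W c R
      · rw [indicator_of_mem hx, eq_neg_of_add_eq_zero_left (e x hx), Pi.smul_apply, neg_smul]
      · rw [indicator_of_notMem hx, (hw.off.smul _) x hx]
    have := (Λ₀.map_smul (-τ) u').symm.trans (l1 _ b b1 (e1 ▸ hy))
    rw [hpr_l2 hD hp (asd le_rfl b1 b4 fun x hx => by
        simpa [w0 x hx] using e x (qe.mem (ab.T0.trans_lt hx))) kχ.cf (int_c1 qe.toEn ab.T0 b3),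
      mul_zero, smul_eq_mul, mul_eq_zero, neg_eq_zero] at this
    obtain rfl := this.resolve_right l0
    rw [neg_zero, zero_smul, map_zero, map_zero] at e1
    rw [← show (0 : HK _ 0) = y from congrArg Subtype.val e1] at hy
    exact ⟨rfl, fun x _ => eq_zero_of_c2 (b1.d.dg x) (congrFun ((Continuous.ae_eq_iff_eq
      (J.G c s).F.μ (sm_c2 b1.d.sm).continuous continuous_zero).1 (hy.symm.trans Is.zero)) x)⟩

/-- **H-TAK** -/
theorem hTak (Lm : LM κ lam) : HTak Lm := fun _ _ _ _ _ _ _ _ _ _ _ _ _ _ hQ k h1 _ =>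
  tak (jq_of hQ k h1)

end Crest.Agent.X212.Taf6
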