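import Crest.Agent.X212.Taf6.A
import Crest.Agent.X212.Qab60.Lh

/-!
# Row 212, RFQ-H-TAF (helper6): the abelian part is onto where the holonomy moves
-/

set_option autoImplicit false
set_option linter.unusedSectionVars false
noncomputable section
open scoped Manifold ContDiff Topology InnerProductSpace
open MeasureTheory Set Function Filter
open Crest.Agent.R208.F (Ext)

namespace Crest.Agent.X212.Taf6
open An Sob92 Num57 Prm93 Qab60 Nd18 M Rf65 G75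
open Dr59 (dM df pm)
open Cyf70 (IC)
open Fin37 (Pm)

variable {Wi : Type} {X : Mf 4} {A κ lam : Type} [Fintype A] [Fintype κ] [Fintype lam]
  [DecidableEq lam] {M : Mark X A κ} {W : World M} {N : ML M lam} {Λ : Lns W N}
  {A' h : Type} [Fintype A'] [DecidableEq A'] [Fintype h] {r n : ℕ}
  {J : Job Wi Λ A' h r n} {c : M.Cl} {R : A} {ν : Type} [Fintype ν] [DecidableEq ν]
  {Q : QT (W.Z c).E (W.Z c).M ν} {θ : (J.xs R).Y.M → Circle} {ϖ : (J.xs R).Y.M → V3}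
  (H : JQ J c R Q θ ϖ)
include H

section
variable {s s' : A' → ℝ} (ha : Act J.m c R (some false) (J.Θ s))
  (ha' : Act J.m c R (some false) (J.Θ s'))

theorem ψ_eq {q : (J.xs R).Y.M × ℝ} (hq : 0 < q.2) :
    (kI J c R s ha).ψ q = (kI J c R s' ha').ψ q := by
  rw [Cht98.isNk_ψ ha (H.ok.nk _ _ _ _ ha) ((H.qe s ha).J hq),
    Cht98.isNk_ψ ha' (H.ok.nk _ _ _ _ ha') ((H.qe s' ha').J hq),
    show (J.Θ s).2 R = 1 from ha.2.1.2 ha.2.2.2, show (J.Θ s').2 R = 1 from ha'.2.1.2 ha'.2.2.2]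

theorem tm_eq {x : (W.Z c).M} (hx : 0 < (kI J c R s' ha').tm x) :
    (kI J c R s ha).tm x = (kI J c R s' ha').tm x := by
  have e := (H.qe s' ha').symm2 hx
  rw [← e, ← (H.qe s ha).tm (e ▸ hx), ψ_eq H ha ha' (e ▸ hx),
    (kI J c R s' ha').ψ.right_inv ((H.qe s' ha').tgt hx)]

end

theorem taf : ∃ d > (0 : ℝ), ∀ β, OpB J β → ∀ q σ s f a k, Ball β 0 q →
    Cz (W.Z c).I (oI W c R) f → HasCompactSupport f → ASj J c R q s f a → σ k = none →
    (∃ e ∈ M.sys.inn (hp R false), J.hd k = some e) → s k ∈ Ioo (0 : ℝ) 1 →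
    (∀ t ∈ Ioo (0 : ℝ) 1, Pm J c (update s k t)) → ∀ Hf : ℝ → ℝ,
    (∀ t ∈ Ioo (0 : ℝ) 1, Hv J c R θ ϖ q (update s k t) f (Hf t)) → deriv Hf (s k) ≠ 0 →
    TAg J c R q s (f + dM (W.Z c).I a) σ d := by
  by_cases hp : PR (J.xs R).D.F θ ϖ
  swap
  · exact ⟨1, one_pos, fun _ _ _ _ s _ _ _ _ _ _ _ _ _ _ _ _ _ _ ha => (hp (H.qe s ha).pr).elim⟩
  have hD := (H.ok.xs R).1.yd
  obtain ⟨V, V0, d, d0, hV, hN⟩ := endS _ θ ϖ hD hp
  obtain ⟨-, -, -, hX⟩ := Sep15.Qa.flx _ θ ϖ hD hp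
  refine ⟨d, d0, fun β hβ q σ s f a k hq hf hc has hk he hs hP Hf hH hd ha T => ?_⟩
  have qe := H.qe s ha
  obtain ⟨j, hj⟩ := hβ.2 q.support
  have op := fun t ht => hj q (by simpa [Ball, Finsupp.sum] using le_of_lt hq) c _ (hP t ht)
  have fa := fa_J (S := q.support) H.ok ha.2.2.1 (θ := update s k) (a := fun _ => q) isOpen_Ioo
    (contDiff_update _ _ _).contDiffOn (fun _ => contDiffOn_const)
    (fun t ht => Pm.memO H.ok (hP t ht)) qe.pc op
  obtain ⟨C, hC, C0⟩ := smF_supp (ι := Option κ) (wS c J q.support) (T := Fin37.tm J c) fun _ => wS_in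
  obtain ⟨T₀, hT₀⟩ := (hC.union hc).bddAbove_image (kI J c R s ha).cont.continuousOn
  obtain ⟨T₁, p0, pT, p1⟩ : ∃ T₁, 0 ≤ T₁ ∧ T ≤ T₁ ∧ T₀ ≤ T₁ :=
    ⟨max 0 (max T T₀), le_max_left _ _, le_max_of_le_right (le_max_left _ _),
      le_max_of_le_right (le_max_right _ _)⟩
  have hi : ∀ s' ha' x, T₁ < (kI J c R s' ha').tm x → x ∉ C ∧ f x = 0 := fun s' ha' x hx =>
    have k : x ∉ C ∪ tsupport f := fun k => (p1.trans_lt hx).not_ge
      (tm_eq H ha ha' (p0.trans_lt hx) ▸ hT₀ (mem_image_of_mem _ k))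
    ⟨fun e => k (.inl e), image_eq_zero_of_notMem_tsupport fun e => k (.inr e)⟩
  obtain ⟨χ, kχ⟩ := exists_ct T₁
  have k0 := kχ.mono p0
  have hη := qe.ok.cη false
  obtain ⟨v, hv⟩ := (sq_of_hcs (F := (J.G c s).F) (qe.cz_ec k0 hη).1.sm (qe.cz_ec k0 hη).2).exists
  let ℓ : HK (J.G c s).F 0 →L[ℝ] ℝ :=
    innerSL ℝ (PH (J.G c s).F (J.B c).o 0 v - PH (J.G c s).F (ng (J.B c).o) 0 v)
  have pr := fun b (hb : Fo (W.Z c).I 1 b) => qe.hpr_eq k0 hb hη (qe.ok.ηE false)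
  have hℓ : ∀ u b, Fo (W.Z c).I 1 b → Isf (J.G c s).F u (dM (W.Z c).I b) → ℓ u =
      -2 * hpr (J.xs R).D ϖ χ (pm (IC (J.xs R).Y.I) (W.Z c).I (kI J c R s ha).ψ b) := fun u b hb hu => by
    rw [pr b hb, neg_mul_neg, hl, ← qe.tam.Bw_eq hu hv hb.d.dg, Bw, ← inner_sub_right, real_inner_comm]
    rfl
  refine ⟨ℓ ∘L (KK _ _).subtypeL ∘L (fa.L (s k)).inverse ∘L fa.pc.pr, fun g u hg hu h0 => ?_, .inr ?_⟩
  · obtain ⟨b, b1, b2, b3, b4⟩ := solve fa hs hg.sm (.intro (qe.cpt T) fun x hx =>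
      by_contra fun e => hx (hg.off x e)) hg.sd (fun x hx => by_contra fun e => hx (hg.off x e).1) hu
    replace b4 : ∀ x ∈ oI W c R, aE J c q (update s k (s k)) (dM (W.Z c).I b) x = g x := b4
    rw [update_eq_self] at b4
    have nf := hN T₁ _ χ (qe.asd p0 b1 b3.memLp fun x hx => by
      have := b4 x (qe.mem (p0.trans_lt hx))
      rwa [aE, aF, C0 _ _ _ _ x (hi s ha x hx).1, sub_zero, show g x = 0 from
        by_contra fun e => (pT.trans_lt hx).not_ge (hg.off x e).2] at this) kχ.cf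
    rw [(mul_eq_zero.1 ((hℓ _ b b1 b3).symm.trans h0)).resolve_left (by norm_num), zero_div] at nf
    obtain ⟨b', T', c1, c2, c3, c4⟩ := fix qe.toEn (by linarith) b1 b2 nf
    exact ⟨b', T', c1, c2, c3 ▸ b4, c4⟩
  · have cf := hf.add_d qe.cl has.fo has.off
    have sq := (sq_of_hcs (F := (J.G c s).F) hf.fo.sm hc).add has.sq
    obtain ⟨u, hu⟩ := sq.exists
    have is := fun t (ht : t ∈ Ioo (0 : ℝ) 1) => (is_AO fa ht cf.fo cf.off hu).1
    obtain ⟨u', d1, d2⟩ := der fa (Ioo_mem_nhds hs.1 hs.2) (hu.π_eq qe.cl cf.off) ((is _ hs).unique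
      (Is.zero.congr (.of_forall fun x => (indicator_apply_eq_zero.2 fun hx => by
        change aE J c q (update s k (s k)) _ x = 0
        rw [update_eq_self]
        exact sub_eq_zero.2 (has.eq x hx)).symm))) ℓ
    refine ⟨k, hk, he, hs, _, u', d1, fun e => hd ?_, mem_of_superset (Ioo_mem_nhds hs.1 hs.2) is⟩
    replace d2 := d2.congr_deriv (neg_eq_zero.2 e)
    refine (((d2.div_const (-2)).add_const (hpr (J.xs R).D ϖ χ
      (pm (IC (J.xs R).Y.I) (W.Z c).I (kI J c R s ha).ψ a))).div_const V |>.congr_of_eventuallyEq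
      (mem_of_superset (Ioo_mem_nhds hs.1 hs.2) fun t ht => ?_)).deriv.trans (by simp)
    obtain ⟨b, hb⟩ := (fa.pcG ht).exists_as (op t ht)
      (by nlinarith [Real.sq_sqrt zero_le_two, Real.sqrt_nonneg 2]) cf ((fa.cp ht).sq sq)
    have sh := hb.shift has.fo has.off ((fa.cp ht).sq has.sq)
    obtain ⟨T₂, h2⟩ := hH t ht
    obtain ⟨χ', kχ'⟩ := exists_ct (max T₁ T₂)
    have ha' := H.act (hP t ht)
    have qe' := H.qe _ ha'
    have e1 := h2 χ' (kχ'.mono (le_max_right _ _)) _ sh ha'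
    rw [hV _ _ kχ'.cf, ← hX T₁ _ χ χ' (qe'.asd p0 sh.fo sh.sq fun x hx => by
      have := sh.eq x (qe'.mem (p0.trans_lt hx))
      rwa [aF, C0 _ _ _ _ x (hi _ ha' x hx).1, Qab60.c2_add, Pi.add_apply, c2_of_zero (hi _ ha' x hx).2,
        zero_add] at this) kχ.cf (kχ'.mono (le_max_left _ _)).cf,
      hpr_congr k0 ϖ fun z hz => Dr59.pm_congr (mem_of_superset ((isOpen_univ.prod isOpen_Ioi).mem_nhds hz)
        fun y hy => ψ_eq H ha' ha hy.2) rfl, pr _ sh.fo, has.fo.d_add hb.fo,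
      qe.hl_add k0 hη has.fo.d hb.fo.d] at e1
    refine (eq_div_iff V0).2 (e1.symm.trans (.trans ?_ (congrArg (· / -2 + _)
      (hℓ _ b hb.fo (fa.isf_sol ht cf hu hb)).symm)))
    rw [pr _ hb.fo, pr _ has.fo]
    ring

omit H in
/-- **RFQ-H-TAF** -/
theorem hTaf (Lm : LM κ lam) : HTaf Lm := fun _ _ _ _ _ _ _ _ _ _ _ _ _ _ hQ k h1 _ =>
  taf (jq_of hQ k h1)

end Crest.Agent.X212.Taf6
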