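import Crest.Agent.X212.Qab60.Fam
import Crest.Agent.X212.Qab60.End

/-!
# Row 212, RFQ-H-TAF (helper6): the inverse of the abelian operator; decaying potentials
-/

set_option autoImplicit false
set_option linter.unusedSectionVars false
noncomputable section
open scoped Manifold ContDiff Topology InnerProductSpace
open MeasureTheory Set Function Filter
open Crest.Agent.R208.F (Ext)

namespace Crest.Agent.X212.Taf6
open An Sob92 Num57 Prm93 Qab60 Nd18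
open Dr59 (dM df pm)
open M (Mf)
open Cyf70 (IC)

variable {E : Type} [NormedAddCommGroup E] [NormedSpace ℝ E] [FiniteDimensional ℝ E]
  [MeasurableSpace E] [BorelSpace E]
  {HM : Type} [TopologicalSpace HM] {I : ModelWithCorners ℝ E HM} [I.Boundaryless]
  {M : Type} [TopologicalSpace M] [ChartedSpace HM M] [IsManifold I ∞ M] [T2Space M]
  [MeasurableSpace M] [BorelSpace M] [SecondCountableTopology M] {lam : Type} [Fintype lam]

section fam
variable {ι : Type} [Fintype ι] {𝔉 : Mod61.Fam I M ι lam ℝ} {Ω : Set M}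
  {A : ∀ t, HK (𝔉.G t).F 0 →L[ℝ] HK (𝔉.G t).F 0} {Af : ℝ → (M → V2 ι) → M → V2 ι} {t : ℝ}
  {u : HK 𝔉.F0 0} {f : M → Ext E} {g : M → V2 ι}

variable (𝔉 Af t f) in
/-- the abelian operator on functions -/
def aO (x : M) : V2 ι :=
  hs (𝔉.G t).F 𝔉.B.o x (c2 (𝔉.G t).F f x) - Af t (c2 (𝔉.G t).F f) x

variable (h : FA 𝔉 Ω A Af)
include h

theorem is_AO (ht : t ∈ 𝔉.Q) (hf : Fo I 2 f) (h0 : Off Ω f) (hu : Isf 𝔉.F0 u f) :
    Is 𝔉.F0.toPre 0 _ (AO 𝔉 A t u) (Ω.indicator (aO 𝔉 Af t f)) ∧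
      Continuous (Ω.indicator (aO 𝔉 Af t f)) := by
  obtain ⟨N, n, h1, h2⟩ := h.op t ht
  have i := (h.cp ht).isf hu
  have e := i.π_eq h.pc.cl h0
  obtain ⟨-, s, r⟩ := h1.rp _ _ (sm_c2 hf.sm) i
  have j := is_π h.pc.cl (((h.tamG ht).is_PH i).sub r)
  rw [(sub_mem ((h.pcG ht).PH_mem e) ((h1.per h.pc.cl h2).mem _ e)).2] at j
  refine ⟨is_jj (h.cmp t ht).2 (j.congr (.of_forall fun x => ?_)), h.pc.cl.continuous_indicator
    (((h.tamG ht).cb_hs.choose_spec.1.clm_apply (sm_c2 hf.sm)).continuous.sub s.continuous)⟩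
  by_cases hx : x ∈ Ω <;> simp [hx, aO]

theorem solve (ht : t ∈ 𝔉.Q) (hg : Sm I g) (hc : HasCompactSupport g)
    (sd : ∀ x, hs 𝔉.F0 𝔉.B.o x (g x) = g x) (off : Off Ω g) (hu : Is 𝔉.F0.toPre 0 _ u g) :
    ∃ a, Fo I 1 a ∧ Off Ω a ∧ Isf 𝔉.F0 ((h.L t).inverse (h.pc.pr u)) (dM I a) ∧
      ∀ x ∈ Ω, aO 𝔉 Af t (dM I a) x = g x := by
  have := openPos 𝔉.F0.toPre
  obtain ⟨N, n, h1, h2⟩ := h.op t ht
  have m : u ∈ HP 𝔉.F0 𝔉.B.o Ω := ⟨(h.tam.is_PH hu).unique (hu.congr (.of_forall fun x => (sd x).symm)),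
    (is_π h.pc.cl hu).unique (hu.congr (.of_forall fun x => by
      by_cases hx : x ∈ Ω
      · simp [hx]
      · simp [hx, off x hx]))⟩
  set k := (h.L t).inverse (h.pc.pr u)
  have e : AO 𝔉 A t k = u := (h.L_eq ht k).symm.trans
    ((congrArg _ (Mon62.apply_inverse (h.inv ht) _)).trans (h.pc.pr_eq m))
  have i := is_jj (h.cmp t ht).1 hu
  let φ : Sec I (triv M (V2 ι)) := ⟨g, hg, hc, fun _ => rfl⟩
  obtain ⟨a, a1, a2, a3, -⟩ := (h.pcG ht).sm_sol (h1.per h.pc.cl h2) (u0 := 0) (f0 := 0)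
    (by rw [Isf, c2_zero]; exact Is.zero) ⟨Fo.zero, Dr59.dM_zero, fun _ _ => rfl⟩ ((h.cp ht).kk k.2)
    (fun j => ⟨(𝔉.G t).F.toH j _ φ, ((Is.toH φ).incl j.zero_le).unique i⟩) (by
      rw [zero_add, ← sub_eq_iff_eq_add', ← e]
      exact (jj_jj (h.cmp t ht).symm _).symm)
  have a4 := (h.cp' ht).isf a3
  rw [(h.cp ht).tf_tf (h.cp' ht) k.2] at a4
  obtain ⟨b1, b2⟩ := is_AO h ht a1.d (a2.d h.pc.cl) a4
  refine ⟨a, a1, a2, a4, fun x hx => (indicator_of_mem hx _).symm.trans (congrFun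
    ((Continuous.ae_eq_iff_eq 𝔉.F0.μ b2 hg.continuous).1 (b1.symm.trans (e ▸ hu))) x)⟩

theorem der (hQ : 𝔉.Q ∈ 𝓝 t) (h0 : πH 𝔉.F0 Ω u = u) (e : AO 𝔉 A t u = 0)
    (ℓ : HK 𝔉.F0 0 →L[ℝ] ℝ) : ∃ u', HasDerivAt (fun r => AO 𝔉 A r u) u' t ∧
      HasDerivAt (fun r => ℓ (h.sol u r)) (-ℓ ((h.L t).inverse (h.pc.pr u'))) t := by
  have ht := mem_of_mem_nhds hQ
  have dA := ((h.sm_AO.contDiffAt hQ).differentiableAt (by simp)).hasDerivAt
  have dk := (((h.sm_sol u).contDiffAt hQ).differentiableAt (by simp)).hasDerivAt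
  set k' := deriv (h.sol u) t
  have d1 := (KK 𝔉.F0 Ω).subtypeL.hasFDerivAt.comp_hasDerivAt t dk
  have d2 := dA.clm_apply (d1.const_add u)
  have s0 : h.sol u t = 0 := (h.sol_iff ht h0 0).2 (by simpa using e)
  have z := d2.unique ((hasDerivAt_const t (0 : HK 𝔉.F0 0)).congr_of_eventuallyEq
    (mem_of_superset hQ fun r hr => (h.sol_iff hr h0 _).1 rfl))
  simp only [comp, s0, map_zero, add_zero, Submodule.subtypeL_apply] at z
  refine ⟨deriv (AO 𝔉 A) t u, by simpa using dA.clm_apply (hasDerivAt_const t u), ?_⟩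
  have : (h.L t).inverse (h.pc.pr (deriv (AO 𝔉 A) t u)) = -k' := by
    rw [(h.inv ht).inverse_apply_eq, eq_neg_of_add_eq_zero_left z, ← h.L_eq ht, map_neg, map_neg]
    exact congrArg _ (Subtype.ext (h.pc.pr_eq (h.L t k').2))
  rw [this, Submodule.coe_neg, map_neg, neg_neg]
  exact ℓ.hasFDerivAt.comp_hasDerivAt t d1

end fam

variable {Y : Mf 3} [CompactSpace Y.M] {κ : Type} [Fintype κ] {D : YD Y.I Y.M κ lam}
  {B : Base M (Option κ) lam} {G : Geo I M (Option κ) lam} {K : Nk D B G} {Ω : Set M}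

/-- a potential without holonomy decays after a change of gauge -/
theorem fix (h : En K Ω) {T d : ℝ} (hT : 0 ≤ T) {a : M → Ext E} (ha : Fo I 1 a) (h0 : Off Ω a)
    {θ : Y.M → Circle} (hn : Nf D θ T d 0 (pm (IC Y.I) I K.ψ a)) : ∃ a' T', Fo I 1 a' ∧ Off Ω a' ∧
      dM I a' = dM I a ∧ 0 ≤ T' ∧ Dc D.F T' d (Qab60.c1 D.Z (pm (IC Y.I) I K.ψ a')) := by
  obtain ⟨φ, b, h1, -, -, h2, h3⟩ := hn.ex
  obtain ⟨χ, k⟩ := exists_ct T
  obtain ⟨s, s', hs, k1, k2⟩ := k.ex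
  let Φ : M → ℝ := {x | T < K.tm x}.indicator fun x => (1 - χ (K.tm x)) * φ (K.ψ.symm x)
  have z : ∀ x, K.tm x ≤ T → Φ =ᶠ[𝓝 x] fun _ => 0 := fun x hx =>
    mem_of_superset ((isOpen_lt K.cont continuous_const).mem_nhds (hx.trans_lt hs)) fun y hy =>
      indicator_apply_eq_zero.2 fun _ => by rw [k1 _ (le_of_lt hy), sub_self, zero_mul]
  have o : ∀ T, IsOpen (hZ Y T) := fun _ => isOpen_univ.prod isOpen_Ioi
  have sm : Sm I Φ := fun x => by
    rcases le_or_gt (K.tm x) T with hx | hx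
    · exact contMDiffAt_const.congr_of_eventuallyEq (z x hx)
    · have x0 := hT.trans_lt hx
      exact ((contMDiffAt_const.sub (k.sm.contMDiff.contMDiffAt.comp x (h.sm_tm x0))).mul
        ((h1.contMDiffAt ((o T).mem_nhds ⟨trivial, (h.symm2 x0).symm ▸ hx⟩)).comp x
          (K.iso.sm'.contMDiffAt (K.ψ.open_target.mem_nhds (h.tgt x0))))).congr_of_eventuallyEq
        (mem_of_superset ((isOpen_lt continuous_const K.cont).mem_nhds hx) fun y hy =>
          indicator_of_mem hy _)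
  have sub : hZ Y (max T s') ⊆ hZ Y T := fun q hq => ⟨trivial, (le_max_left T s').trans_lt hq.2⟩
  have e : ∀ q ∈ hZ Y (max T s'), Φ (K.ψ q) = φ q := fun q hq => by
    have q0 := hT.trans_lt (sub hq).2
    simp only [Φ]
    rw [indicator_of_mem (show K.ψ q ∈ {x | T < K.tm x} from lt_of_lt_of_eq (sub hq).2 (h.tm q0).symm), h.tm q0,
      k2 _ ((le_max_right _ _).trans hq.2.le), sub_zero, one_mul, K.ψ.left_inv (h.src q0)]
  refine ⟨a - df I Φ, max T s', ha.sub (fo_df sm), h0.sub fun x hx => Dr59.df_eq_zero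
    (z x (le_of_not_gt fun e => hx (h.mem (hT.trans_lt e)))),
    by rw [ha.d_sub (fo_df sm), d_df sm, sub_zero], hT.trans (le_max_left _ _), fun w => ?_⟩
  refine (h3 w).imp fun C hC q hq => (congrArg _ (Dw_congr w ?_)).trans_le (hC q (sub hq))
  filter_upwards [(o _).mem_nhds hq] with y hy
  have : pm (IC Y.I) I K.ψ (a - df I Φ) y = b y := by
    rw [Dr59.pm_sub, Pi.sub_apply, h2 (sub hy), Dr59.pm_df ((h.smψ (hT.trans_lt (sub hy).2)).mdifferentiableAt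
      (by simp)) ((sm _).mdifferentiableAt (by simp)), df, Dr59.mf_congr (f := Φ ∘ K.ψ) (g := φ)
        (mem_of_superset ((o _).mem_nhds hy) e)]
    simp [df]
  simp only [Qab60.c1, Num57.k1, this]

end Crest.Agent.X212.Taf6
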