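import Crest.Agent.X212.Taf6.LtB
import Crest.Agent.X212.Hsa39.Fam

/-! X212 / NTR-LT (helper6): the variation of a free inner coordinate. -/

set_option autoImplicit false
set_option linter.unusedSectionVars false
noncomputable section
open scoped Manifold ContDiff Topology InnerProductSpace
open MeasureTheory Set Function Filter
open Crest.Agent.R208.F (Ext)

namespace Crest.Agent.X212.Taf6.Lt
open An M Nd18 Mod61 Nk89 Cht98 Rf65 Pte3 Qab60 Prm93 Num57 Nt66 Nr41 Eqv71 Sob92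
open Wrd81 (Bas)

section alg
variable {α V : Type} [Fintype α] [NormedAddCommGroup V] [InnerProductSpace ℝ V] (v : V)

/-- the components along `v` -/
def cL : Fm α V →L[ℝ] Fm α ℝ :=
  (PiLp.continuousLinearEquiv 2 ℝ fun _ : α => ℝ).symm.toContinuousLinearMap ∘L
    .pi fun a => ((1 / 16 : ℝ) • innerSL ℝ v) ∘L PiLp.proj 2 (fun _ : α => V) a

/-- `tn` as an operator -/
def tL : Fm α ℝ →L[ℝ] Fm α V :=
  (PiLp.continuousLinearEquiv 2 ℝ fun _ : α => V).symm.toContinuousLinearMap ∘L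
    .pi fun a => (PiLp.proj 2 (fun _ : α => ℝ) a : _ →L[ℝ] ℝ).smulRight v

theorem cL_tn (h : ‖v‖ ^ 2 = 16) (u : Fm α ℝ) : cL v (tn u v) = u := PiLp.ext fun a => by
  change 1 / 16 * ⟪v, u a • v⟫_ℝ = u a
  rw [real_inner_smul_right, real_inner_self_eq_norm_sq, h]; ring

theorem der_tn (h : ‖v‖ ^ 2 = 16) {g : ℝ → Fm α ℝ} {w : Fm α V} {a : ℝ}
    (d : HasDerivAt (fun t => tn (g (a + t)) v) w 0) :
    HasDerivAt g (cL v w) a ∧ w = tn (cL v w) v := by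
  have d2 : HasDerivAt (fun t => g (a + t)) (cL v w) 0 :=
    ((cL v).hasFDerivAt.comp_hasDerivAt (0 : ℝ) d).congr_of_eventuallyEq
      (.of_forall fun t => (cL_tn v h _).symm)
  have d3 := (tL (α := α) v).hasFDerivAt.comp_hasDerivAt (0 : ℝ) d2
  refine ⟨?_, d.unique d3⟩
  rw [← sub_self a] at d2
  exact (d2.comp_sub_const a a).congr_of_eventuallyEq
    (.of_forall fun t => congrArg g (add_sub_cancel a t).symm)

theorem sm_cL {Z : Mf 4} {ξ : Z.M → V} {w : Z.M → Fm α V} (h1 : Sm Z.I ξ) (h2 : Sm Z.I w) :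
    Sm Z.I fun z => cL (ξ z) (w z) :=
  Qab60.sm_toLp (f := fun a z => 1 / 16 * ⟪ξ z, w z a⟫_ℝ) fun a => contMDiff_const.mul
    (((innerSL ℝ).contMDiff.comp h1).clm_apply ((PiLp.proj 2 (fun _ => V) a).contMDiff.comp h2))

theorem ind_eq {Z : Type} {s : Set Z} {f g : Z → V} {z : Z} (e : f z = g z) :
    s.indicator f z = s.indicator g z := by
  classical simp only [indicator_apply, e]

end alg

section job
variable {Wi : Type} {X : Mf 4} {A κ lam : Type} [Fintype A] [Fintype κ] [Fintype lam]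
  [DecidableEq lam] {M : Mark X A κ} {W : World M} {N : ML M lam} {Λ : Lns W N}
  {A' h : Type} [Fintype A'] [DecidableEq A'] [Fintype h] {r n : ℕ}
  {J : Job Wi Λ A' h r n} {c : M.Cl} {σ : Cel A'} {p : Prt A A' h} {U : Type} [Fintype U] {δ : ℝ}
  {b : Bp J c} {E : EC b p U δ} {j : A'} (hj : j ∈ p.V)

variable (U) in
/-- the coordinate direction -/
def ej : Tq p U := (Pi.single ⟨j, hj⟩ 1, 0)

theorem θ_ej (t : Tq p U) (s : ℝ) :
    b.θ p U (t + s • ej U hj) = update (b.θ p U t) j (b.θ p U t j + s) := funext fun a => by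
  rcases eq_or_ne a j with rfl | e
  · rw [update_self, θ_V hj, θ_V hj]; simp [ej]
  · rw [update_of_ne e]
    by_cases k : a ∈ p.V
    · rw [θ_V k, θ_V k]; simp [ej, e]
    · rw [θ_off k, θ_off k]

variable (H : CS σ E) (x : Pnt E.o r) {q : Wi →₀ ℝ} {f : E.C → E.Y} (hf : E.Map q f) (ψ : E.K)
  (nl : ∀ a, Nl J a) (bas : ∀ w, Bas (J.tw w)) {Ω : Set (W.Z c).M} (cl : IsClopen Ω)
  {ξ : (W.Z c).M → E.o.m.A} (hA : Ab (J.B c) (J.G c (b.θ p U x.t)) Ω x.cfg ξ)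
include H hf nl bas cl hA

theorem der_in {z} (hz : z ∈ Ω) (hz' : z ∈ W.un c p.P) : HasDerivAt (fun t => aE J c q
    (update (b.θ p U x.t) j t) (xf J c (b.θ p U x.t) x.cfg ξ) z)
    (cL (ξ z) (vC (Ld f x ψ (dr (ej U hj) x 8, 0)) z)) (b.θ p U x.t j) ∧
    vC (Ld f x ψ (dr (ej U hj) x 8, 0)) z =
      tn (cL (ξ z) (vC (Ld f x ψ (dr (ej U hj) x 8, 0)) z)) (ξ z) := by
  have d := der_pv H x hf ψ
    ((b.F p U δ).F0.ev 8 E.o.P2 z ∘L .fst ℝ _ _ ∘L .snd ℝ _ _ ∘L .fst ℝ _ _) (τ := ej U hj) rfl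
    fun s y k => (congrFun (hf.e y ψ).C z).trans ((indicator_of_mem hz' _).trans
      ((rows_in H x k nl bas cl hA hz).2.trans (congrArg (fun t => tn (aE J c q t _ z) (ξ z))
        ((congrArg _ k.t).trans (θ_ej hj _ s)))))
  exact der_tn _ (Abel74.norm_sq E.o.ok (hA.rd.mem z hz) (hA.rd.sq z hz))
    (g := fun t => aE J c q (update (b.θ p U x.t) j t) (xf J c (b.θ p U x.t) x.cfg ξ) z) d

theorem tg0 {p' : Prt A A' h} (hp : J.POK σ c p') (hj' : j ∉ p'.V)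
    (cov : ∀ z ∉ Ω, z ∈ W.un c p'.P) {K : Set h} (hK : ∀ i : p.H, i.1 ∉ K → i.1 ∈ p'.H) :
    Tg ∅ Ω K (Ld f x ψ (dr (ej U hj) x 8, 0)) := by
  have o := fun s y (k : Pv x (ej U hj) s y) => rows_out (q := q) H x hp k
    (fun a ha => by rw [k.t, θ_ej, update_of_ne (by rintro rfl; exact hj' ha)])
    fun z hz => hA.z z (not_not.1 fun k => hz (cov z k))
  let LD : (W.Z c).M → E.Y →L[ℝ] _ := fun z =>
    (b.F p U δ).F0.ev 8 E.o.Pm z ∘L .fst ℝ _ _ ∘L .fst ℝ _ _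
  refine ⟨fun z _ => ?_, fun z hz => ?_, ?_, fun l hl => ⟨?_, ?_⟩⟩
  · by_cases hz : z ∈ Ω
    · exact (der_pv H x hf ψ (LD z) rfl (g := fun _ => 0) fun s y k => (congrFun (hf.e y ψ).D z).trans
        (indicator_apply_eq_zero.2 fun _ => (rows_in H x k nl bas cl hA hz).1)).unique
          (hasDerivAt_const _ _)
    · exact der_0 H x hf ψ (LD z) rfl fun s y k => (congrFun (hf.e y ψ).D z).trans
        ((ind_eq ((o s y k).1 z (cov z hz)).1).trans (congrFun (hf.e x ψ).D z).symm)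
  · exact der_0 H x hf ψ ((b.F p U δ).F0.ev 8 E.o.P2 z ∘L .fst ℝ _ _ ∘L .snd ℝ _ _ ∘L .fst ℝ _ _) rfl
      fun s y k => (congrFun (hf.e y ψ).C z).trans
        ((ind_eq ((o s y k).1 z (cov z hz)).2).trans (congrFun (hf.e x ψ).C z).symm)
  · exact der_0 H x hf ψ (.snd ℝ _ _ ∘L .snd ℝ _ _ ∘L .fst ℝ _ _) rfl fun s y k => Prod.ext
      ((hf.e y ψ).S.trans ((o s y k).2.1.trans (hf.e x ψ).S.symm))
      ((hf.e y ψ).R.trans ((o s y k).2.2.1.trans (hf.e x ψ).R.symm))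
  · exact der_0 H x hf ψ (Y := (J.cut c l).H (J.B c) E.o.m)
      (.proj (φ := fun i : p.H => (J.cut c i).H (J.B c) E.o.m) l ∘L .fst ℝ _ _ ∘L .snd ℝ _ _) rfl
      fun s y k => (hf.row y ψ l).trans ((congrArg (· (ψ l)) ((o s y k).2.2.2 l (hK l hl))).trans
        (hf.row x ψ l).symm)
  · exact der_0 H x hf ψ (.proj (φ := fun _ : p.H => ℝ) l ∘L .snd ℝ _ _ ∘L .snd ℝ _ _) rfl
      fun s y _ => (hf.nrm y ψ l).trans (hf.nrm x ψ l).symm

omit cl hA in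
include hj in
theorem lt0 {R : A} (cl : IsClopen (oI W c R)) {s : A' → ℝ} (θ : b.θ p U x.t = s)
    (hA : Ab (J.B c) (J.G c s) (oI W c R) x.cfg ξ) (sub : oI W c R ⊆ W.un c p.P)
    {p' : Prt A A' h} (hp : J.POK σ c p') (hj' : j ∉ p'.V)
    (cov : ∀ z ∉ oI W c R, z ∈ W.un c p'.P) {K : Set h} (hK : ∀ i : p.H, i.1 ∉ K → i.1 ∈ p'.H) :
    ∃ u, Dv J c R q s (xf J c s x.cfg ξ) j u ∧ ∃ e₀ ∈ range (Ld f x ψ), Tg ∅ (oI W c R) K e₀ ∧
      vC e₀ ∈ Mod61.Hs (b.F p U δ).F0.toPre E.o.P2 ∧ ∀ z, vC e₀ z = tn (u z) (ξ z) := by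
  subst θ
  have hs := vC_hs H x hf ψ (τ := ej U hj) rfl
  have tg := tg0 hj H x hf ψ nl bas cl hA hp hj' cov hK
  have d := fun z hz => der_in hj H x hf ψ nl bas cl hA (z := z) hz (sub hz)
  refine ⟨_, ⟨sm_cL (Hsa39.cb_ξ H.F x cl hA.rd).choose_spec.1 (Hs_cb H.F.sup hs).choose_spec.1,
    fun z hz => (congrArg _ (tg.C z hz)).trans (map_zero _), fun z hz => (d z hz).1⟩, _, ⟨_, rfl⟩,
    tg, hs, fun z => ?_⟩
  by_cases hz : z ∈ oI W c R
  · exact (d z hz).2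
  · exact (tg.C z hz).trans (PiLp.ext fun _ => ((congrArg _ (hA.rd.off z hz)).trans
      (smul_zero _)).symm)

end job

open G75 Ins26 Jb7
variable {κ lam : Type} [Fintype κ] [Fintype lam] [DecidableEq lam] {Lm : LM κ lam}
  {S : Scene Lm} {D : S.Dat} {i : S.L} {Wi : Type} {r n : ℕ}
  {J : Job Wi (D.Λ i) (S.A ⊕ Unit) S.ls r n} {c : S.M.Cl} {σ : Cel (S.A ⊕ Unit)} {R : S.A}
  (one : c.1 = {R}) {j : S.A ⊕ Unit} {s : S.A ⊕ Unit → ℝ}
include one

theorem pc (b : Bool) : S.M.sys.Piece c.1 (hp R b) := one ▸ Mp86.St.piece_hp b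

theorem dj : Disjoint (S.M.sys.U (hp R true)) (S.M.sys.U (hp R false)) := disjoint_left.2
  fun z a b => by
    have := S.M.con
    simpa [Rf65.hp] using congrFun ((pc one true).unique c.2 (pc one false) a b) R

theorem mem_V (fi : Fi J R s σ j) : j ∈ (pW J c (shX S {R}) σ R).V :=
  let ⟨h1, ⟨e, h2, h3⟩, _⟩ := fi
  ⟨h1, fun a ha hc => (pc one false).not_inn a hc (Option.some.inj (h3.symm.trans ha) ▸ h2),
    .inr ⟨_, .inr rfl, e, h2, h3⟩⟩

omit one in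
theorem jr3 (k : ∃ Es b' z j n₀ T, JR J R Es b' z j n₀ T) : (∀ a, Nl J a) ∧ LocP J (shX S {R}) ∧
    ∀ j e, J.hd j = some e → j ∉ shX S {R} := by
  obtain ⟨_, _, _, _, _, _, k⟩ := k
  refine ⟨fun a => k.gx.nil a (by simp), k.gx.loc, fun j e h3 hj => ?_⟩
  rw [k.gx.hd] at h3
  rcases j with a | a
  · exact hj a (by_contra fun k => by simp [k] at h3) rfl
  · simp at h3

theorem not_V (g : ∀ j e, J.hd j = some e → j ∉ shX S {R}) (fi : Fi J R s σ j) :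
    j ∉ (pO J c (shX S {R}) σ R).V := fun ⟨_, _, hj⟩ => by
  obtain ⟨-, ⟨e, h2, h3⟩, -⟩ := fi
  rcases hj with hj | ⟨_, rfl, a, h4, h5⟩
  · exact g j e h3 hj
  · obtain ⟨z, hz, -⟩ := (S.M.sys.w e).ne true
    exact disjoint_left.1 (dj one) ((Option.some.inj (h5.symm.trans h3) ▸ h4).2.1 hz) (h2.2.1 hz)

theorem cov : ∀ z ∉ oI D.W c R, z ∈ D.W.un c {hp R true} := fun z hz => by
  obtain ⟨π, h4, h5⟩ := Cyl58.exists_pc D.W.toCaps z
  rcases Mp86.St.eq_hp (one ▸ h4) with rfl | rfl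
  exacts [mem_biUnion rfl h5, (hz h5).elim]

theorem cuts (hn : ∀ l, IsPreconnected (J.nb l)) (l : (pW J c (shX S {R}) σ R).H)
    (hl : l.1 ∉ Hi J R) : l.1 ∈ (pO J c (shX S {R}) σ R).H := ⟨trivial, by
  rw [biUnion_singleton]
  exact ((hn l).subset_or_subset (S.M.sys.isOpen_U _) (S.M.sys.isOpen_U _) (dj one)
    (l.2.2.trans (biUnion_pair _ _ _).le)).resolve_right hl⟩

omit one in
variable (Lm) in
/-- **LEAF LT** -/
theorem lt : All Lm fun C f => Nr41.Lt f C := fun S D _ _ _ _ J c _ _ => ⟨1, one_pos,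
  fun _ _ σ R _ _ _ _ x ψ _ C _ hf _ fi =>
    have k := jr3 C.jr
    lt0 (mem_V C.one fi) C.cs x hf ψ k.1 k.2.1.bas (Cyl58.isClopen_pc D.W.toCaps (pc C.one false))
      C.θ C.ins.ab (fun _ hz => mem_biUnion (Nr41.sub_in rfl) hz) (p' := pO J c (shX S {R}) σ R)
      (k.2.1.pok σ C.cs.mem c _ _ univ (fun _ k => k ▸ pc C.one true) Subset.rfl)
      (not_V C.one k.2.2 fi) (cov C.one) (cuts C.one k.2.1.nb)⟩

end Crest.Agent.X212.Taf6.Lt
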