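import Crest.Agent.X212.Cay24.Qa
import Crest.Agent.X212.Ncm43.Cmp

/-! X212 / NTR-LT (helper6): the explicit change of the metric; directions that fix the limits
(the cocycle identities are those of `Nk89/Gwc`, `trn` is `Cay24.trnStmt` made explicit, `b_two` is
`Ncm43.b_end` for two parameters). -/

set_option autoImplicit false
set_option linter.unusedSectionVars false
noncomputable section
open scoped Manifold ContDiff Topology InnerProductSpace
open MeasureTheory Set Function Filter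
open Crest.Agent.R208.F (Ext)

namespace Crest.Agent.X212.Taf6.Lt
open An Wz78 Pj41 Num57 Met55 Qab60 Cay24 Spn45
open Abel74 (fm fF RedOn)
open Loc8 (Rd)
open Sob92 (dv)

variable {E : Type} [NormedAddCommGroup E] [NormedSpace ℝ E] [FiniteDimensional ℝ E]
  [MeasurableSpace E] [BorelSpace E]
  {HM : Type} [TopologicalSpace HM] {I : ModelWithCorners ℝ E HM} [I.Boundaryless]
  {M : Type} [TopologicalSpace M] [ChartedSpace HM M] [IsManifold I ∞ M] [T2Space M]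
  [MeasurableSpace M] [BorelSpace M] [SecondCountableTopology M]
  {ι : Type} [Fintype ι] {lam : Type} [Fintype lam]

section coc
variable (F₁ F₂ F₃ : An.Fr I M ι) (B : Base M ι lam) (m : Md M ι lam) (G₁ G₂ G₃ : Geo I M ι lam)
  (x : M) (a b k : ι)

open Prm93 in
theorem trS_coc : ∑ c, trS F₂ F₃ x a c * trS F₁ F₂ x c b = trS F₁ F₃ x a b := by
  have h : fM F₁.e F₂.e x * fM F₂.e F₃.e x = fM F₁.e F₃.e x := by
    rw [fM, fM, tm, tm, Matrix.mul_assoc, ← Matrix.mul_assoc (Met55.fm _ _),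
      (pre_sp F₂.toPre x).fm_ri, Matrix.one_mul]; rfl
  simp only [trS_eq, mul_comm (fM F₂.e _ _ _ _)]
  rw [← h]; rfl

theorem cfS_coc : ∑ c, trS F₂ F₃ x a c * cfS F₁ F₂ x c b k + cfS F₂ F₃ x a b k =
    cfS F₁ F₃ x a b k := by
  simp only [cfS, Spn45.dG, ← trS_coc F₁ F₂ F₃, Finset.sum_mul, mul_sub, Finset.mul_sum,
    Finset.sum_sub_distrib]
  rw [Finset.sum_comm (f := fun l c => 1 / 4 * (trS F₂ F₃ x a c * trS F₁ F₂ x c l * F₁.Gam l b k x))]
  simp only [mul_left_comm (trS F₂ F₃ x a _) (1 / 4 : ℝ), mul_assoc]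
  ring

theorem laS_coc : ∑ c, trS G₂.F G₃.F x a c * laS B G₁ G₂ x c + laS B G₂ G₃ x a =
    laS B G₁ G₃ x a := by
  have : Met55.dA G₁ G₃ a x = ∑ c, trS G₂.F G₃.F x a c • Met55.dA G₁ G₂ c x + Met55.dA G₂ G₃ a x := by
    simp only [Met55.dA, ← trS_coc G₁.F G₂.F G₃.F, Finset.sum_smul, smul_sub, Finset.smul_sum,
      smul_smul, Finset.sum_sub_distrib]
    rw [Finset.sum_comm]; abel
  simp only [laS, this, mul_add, add_mul, Finset.mul_sum, Finset.sum_mul, map_add, map_sum,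
    mul_smul_comm, smul_mul_assoc, map_smul, smul_eq_mul, mul_left_comm (trS G₂.F G₃.F x a _)]

/-- change of the background of a connection -/
def chA (A : m.Cn) : m.Cn := fun a x => ∑ b, trS G₁.F G₂.F x a b • A b x +
  ∑ b, ∑ k, cfS G₁.F G₂.F x a b k • (m.ρ b x * m.ρ k x) + laS B G₁ G₂ x a • (m.J * m.p x)

theorem chA_coc (A : m.Cn) : chA B m G₂ G₃ (chA B m G₁ G₂ A) = chA B m G₁ G₃ A := by
  funext a x
  simp only [chA, ← trS_coc G₁.F G₂.F G₃.F, ← cfS_coc G₁.F G₂.F G₃.F, ← laS_coc B G₁ G₂ G₃ x a,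
    smul_add, Finset.smul_sum, smul_smul, add_smul, Finset.sum_smul, Finset.sum_add_distrib]
  rw [Finset.sum_comm (f := fun b c => (trS G₂.F G₃.F x a b * trS G₁.F G₂.F x b c) • A c x),
    Finset.sum_comm (f := fun l b => ∑ k, (trS G₂.F G₃.F x a l * cfS G₁.F G₂.F x l b k) • _),
    Finset.sum_congr rfl fun b _ => Finset.sum_comm (f := fun l k =>
      (trS G₂.F G₃.F x a l * cfS G₁.F G₂.F x l b k) • (m.ρ b x * m.ρ k x))]
  abel

end coc

variable {B : Base M ι lam} {G G' : Geo I M ι lam} {r : ℕ} {c : Cfg M ι lam r} {Ω : Set M}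
  {ξ : M → c.m.A} (hB : B.OK I) (hG : G.OK B) (hG' : G'.OK B)
include hB hG hG'

omit hB hG' in
theorem chA_agr {m : Md M ι lam} {W : m.Cn} (C : m.IsConn B G W) {O : Set M}
    (e : Cht98.Agr G G' O) (a : ι) {x : M} (hx : x ∈ O) : chA B m G G' W a x = W a x := by
  simp only [chA, (e.S hx _ _).1, e.cf hx, e.la hG hx, hG.P, C.cc.proj, Pi.zero_apply, zero_smul,
    Finset.sum_const_zero, add_zero]

theorem trn (h : Ab B G Ω c ξ) : Ab B G' Ω ⟨c.m, chA B c.m G G' c.W, c.Φ, c.z⟩ ξ ∧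
    fm G'.F c.m (chA B c.m G G' c.W) ξ = fm G.F c.m c.W ξ := by
  have H := h.adm.ok
  have C := h.adm.conn
  have R := h.rd
  have C' := isConn_chg hB hG hG' H C
  have hD : ∀ a (f : M → ℝ) x, dv I (G'.F.e a) f x =
      ∑ l, trS G.F G'.F x a l * dv I (G.F.e l) f x :=
    fun a f x => congrFun ((trS_mix G.F G'.F).D a f) x
  obtain ⟨Θ, hΘ⟩ : ∃ Θ : c.m.Cn, Θ = fun a x => ∑ b, ∑ k, cfS G.F G'.F x a b k •
    (c.m.ρ b x * c.m.ρ k x) + laS B G G' x a • (c.m.J * c.m.p x) := ⟨_, rfl⟩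
  simp only [add_assoc, ← congrFun₂ hΘ] at C'
  rw [show chA B c.m G G' c.W = fun a x => ∑ b, trS G.F G'.F x a b • c.W b x + Θ a x from
    funext₂ fun a x => by rw [hΘ]; exact add_assoc _ _ _]
  have h1 : ∀ a, ∀ x ∈ Ω, Commute (opL (ξ x)) (Θ a x) := fun a x hx => by
    have g := R.mem x hx
    rw [hΘ]
    exact (Commute.sum_right _ _ _ fun b _ => Commute.sum_right _ _ _ fun k _ =>
      (Commute.mul_right (g_ρ g b).symm (g_ρ g k).symm).smul_right _).add_right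
      ((Commute.mul_right (g_J g).symm ((g_p' H g).trans (g_p g).symm)).smul_right _)
  have h2 : ∀ a, ∀ x ∈ Ω, Num57.tr (opL (ξ x) * Θ a x) = 0 := fun a x hx => by
    have g := R.mem x hx
    have : c.m.pg x (hsL (Θ a x)) = 0 := by
      simp only [hΘ, cfS_spin, map_add, map_smul, pg_Jp hB H, smul_zero, add_zero]
      exact pg_spin fun b k => Spn45.dG_skew (glc hG) (glc hG') hD a b k x
    rw [Num57.tr, ← trE_eq, ← neg_eq_zero, ← inner_skw (g_skw g), ← pg_of_mem g, inner_pg, this,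
      inner_zero_right]
  have R' : Rd G'.F c.m (fun a x => ∑ b, trS G.F G'.F x a b • c.W b x + Θ a x) Ω ξ :=
    ⟨⟨R.sm, R.mem, R.sq, fun x hx a => by
      have e : dv I (G'.F.e a) ξ x = ∑ l, trS G.F G'.F x a l • dv I (G.F.e l) ξ x :=
        congrFun ((trS_mix G.F G'.F).D a ξ) x
      have z : adc (Θ a x) (ξ x) = 0 := by rw [adc_apply, (h1 a x hx).eq, sub_self, map_zero]
      have p := R.par x hx
      simp only [nab, Md.adW] at p ⊢
      rw [e, ← adcL_apply, map_add, map_sum, add_apply, adcL_apply, z, add_zero, _root_.sum_apply,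
        ← Finset.sum_add_distrib]
      simp only [map_smul, smul_apply, adcL_apply, ← smul_add, p, smul_zero,
        Finset.sum_const_zero]⟩, R.op, R.off⟩
  refine ⟨⟨⟨H, C', h.adm.sm, h.adm.pos, h.adm.z⟩, R', h.z⟩, funext fun x => ?_⟩
  by_cases hx : x ∈ Ω
  · have pa : ∀ {G : Geo I M ι lam} {W : c.m.Cn}, G.OK B → c.m.IsConn B G W → Rd G.F c.m W Ω ξ →
        Pa I Ω (cn G.F W) (f0 E fun x => opL (ξ x)) := fun hG C R =>
      pa_cn _ (fun x _ a => by rw [hG.P]; exact C.cc.proj a x) (fun x => R.sm_opL) fun x => R.nE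
    rw [fm_at hG' C' (R.mem x hx), fm_at hG C (R.mem x hx), Pi.smul_apply, Pi.smul_apply,
      c1_sub R.op ((Abel74.Red.co C).mono (subset_univ Ω)) ((Abel74.Red.co C').mono (subset_univ Ω))
        (pa hG C R) (pa hG' C' R') hx, Dr59.dM_congr (b := 0), Dr59.dM_zero, Pi.zero_apply, add_zero]
    refine mem_of_superset (R.op.mem_nhds hx) fun y hy => ?_
    rw [cn_chg (F' := G'.F) fun a x => by rw [hG.P]; exact C.cc.proj a x]
    exact tg1_cn _ fun a => by rw [add_sub_cancel_left]; exact h2 a y hy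
  · rw [R.fm_off hx, R'.fm_off hx]

omit hB hG hG'
open Mod61 Nd18 Nk89
variable {T : Type} [NormedAddCommGroup T] [NormedSpace ℝ T]

theorem W_eq {𝔉 : Mod61.Fam I M ι lam T} (o : Mod61.Ref 𝔉) (t : T) (α : M → Fm ι o.m.A) :
    o.W t α = 𝔉.W0 o.m (o.m.addC o.A0 (o.b t + α)) t := funext₂ fun a x => by
  simp only [W_apply, Fam.W0, Ref.A, Md.addC, Pi.add_apply, PiLp.add_apply, map_add, smul_add,
    Finset.sum_add_distrib]
  abel

/-- two parameters with the same limit -/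
theorem b_two {κ : Type} [Fintype κ] {𝔉 : Mod61.Fam I M (Option κ) lam T} {P : End 𝔉}
    {o : Mod61.Ref 𝔉} {ψ : M → ℝ} {δ R₀ R : ℝ} (k : 𝔉.OK) (hP : P.OK ψ δ R₀) (hR : R₀ ≤ R)
    (hl : P.Lit o R) {β : YC P.Y.M κ lam} {v : P.Y.M × ℝ → CL β.m.V o.m.V} {t t' : T}
    (ht : t ∈ 𝔉.Q) (ht' : t' ∈ 𝔉.Q)
    (mv : ∀ s, s = t ∨ s = t' → Mod61.EqOn P.D.B P.D.Z univ (cy β) (cy (P.sl o (R + 1) s)) v 1) :
    ∀ x ∈ P.U R, o.b (t - t') x = 0 := fun x hx => by
  obtain ⟨z, hz, rfl⟩ := hP.exists_ψ hx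
  have hx' : P.K.ψ z ∈ P.U R₀ := ⟨hx.1, hR.trans_lt hx.2⟩
  have hW : ∀ t ∈ 𝔉.Q, ∀ a, o.W t 0 a (P.K.ψ z) = o.A0 a (P.K.ψ z) + opL (o.b t (P.K.ψ z) a) :=
    fun t ht a => by
      have := (o.connA k.B t).cc.proj a (P.K.ψ z)
      simp only [Ref.W, Md.addC, Fam.W0, (hP.S t ht _ hx' _ _).1, (hP.cf t ht _ hx').1,
        (hP.cf t ht _ hx').2, Pi.zero_apply, zero_smul, Finset.sum_const_zero, add_zero, map_zero,
        PiLp.zero_apply]
      exact this
  ext a : 1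
  have e : ∀ s ∈ 𝔉.Q, s = t ∨ s = t' → P.D.Z.D a v z + (∑ b, 𝔉.B.P a b (P.K.ψ z) • o.A0 b (P.K.ψ z) +
      opL (o.b s (P.K.ψ z) a)) ∘L v z - v z ∘L β.W a z.1 = 0 := fun t ht h => by
    refine Eq.trans ?_ ((mv t h).W z trivial a)
    rw [← o.b_proj k.B t, map_sum, ← Finset.sum_add_distrib]
    refine congrArg (fun w : CL o.m.V o.m.V => P.D.Z.D a v z + w ∘L v z - v z ∘L β.W a z.1) ?_
    refine Finset.sum_congr rfl fun b _ => ?_
    rw [map_smul, ← smul_add, ← hW t ht, (hl.at ht hz).2.2.2.1, (k.B.pr _).symm,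
      P.K.P b a z (hP.src (hR.trans hz.le))]
    rfl
  have e1 : opL (o.b (t - t') (P.K.ψ z) a) ∘L v z = 0 := by
    rw [← sub_self (0 : CL β.m.V o.m.V)]
    conv_rhs => rw [← e t ht (.inl rfl)]; arg 2; rw [e t ht (.inl rfl), ← e t' ht' (.inr rfl)]
    simp only [map_sub, Pi.sub_apply, PiLp.sub_apply, ContinuousLinearMap.sub_comp,
      ContinuousLinearMap.add_comp]
    abel
  have e2 : v z ∘L An.trn (v z) = o.m.p (P.K.ψ z) :=
    ((mv t (.inl rfl)).m.uu' z trivial).trans (hl.at ht hz).1.symm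
  refine Wz78.opL_inj ?_
  rw [← Wz78.g_p' o.ok (o.b_mem _ _ a), ← e2, ContinuousLinearMap.mul_def,
    ← ContinuousLinearMap.comp_assoc, e1]
  simp

end Crest.Agent.X212.Taf6.Lt
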