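import Crest.Agent.X212.Taf6.LtA
import Crest.Agent.X212.Mp86.Lab

/-! X212 / NTR-LT (helper6): the path along a parameter and its rows. -/

set_option autoImplicit false
set_option linter.unusedSectionVars false
noncomputable section
open scoped Manifold ContDiff Topology InnerProductSpace
open MeasureTheory Set Function Filter
open Crest.Agent.R208.F (Ext)

namespace Crest.Agent.X212.Taf6.Lt
open An M Nd18 Mod61 Nk89 Cht98 Rf65 Pte3 Qab60 Prm93 Num57 Nt66 Nr41 Eqv71 Sob92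
open Wrd81 (Bas)

variable {Wi : Type} {X : Mf 4} {A κ lam : Type} [Fintype A] [Fintype κ] [Fintype lam]
  [DecidableEq lam] {M : Mark X A κ} {W : World M} {N : ML M lam} {Λ : Lns W N}
  {A' h : Type} [Fintype A'] [DecidableEq A'] [Fintype h] {r n : ℕ}
  {J : Job Wi Λ A' h r n} {c : M.Cl} {σ : Cel A'} {p : Prt A A' h} {U : Type} [Fintype U] {δ : ℝ}
  {b : Bp J c} {E : EC b p U δ} (H : CS σ E) (x : Pnt E.o r) {τ : Tq p U}
include H

theorem ev_Q (τ : Tq p U) : ∀ᶠ s : ℝ in 𝓝 0, x.t + s • τ ∈ (b.F p U δ).Q :=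
  (by fun_prop : Continuous fun s : ℝ => x.t + s • τ).continuousAt.eventually
    (H.F.opn.mem_nhds (by simpa using x.ht))

include x in
/-- directions that fix the limits -/
theorem b_hs (hτ : τ.2 = 0) : E.o.b τ ∈ Mod61.Hs (b.F p U δ).F0.toPre E.o.P1 := by
  refine Hs_sec H.F.sup ⟨E.o.b τ, (E.o.sb.cb τ trivial).choose_spec.1,
    HasCompactSupport.intro (H.ee.cov' E.R) fun z hz => ?_, E.o.bP τ⟩
  obtain ⟨i, hi⟩ := mem_iUnion.1 (not_not.1 hz)
  rcases (H.ee.okP i).dich H.F.Om le_rfl with k | k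
  · obtain ⟨s, h2, h3⟩ := (((ev_Q H x τ).filter_mono nhdsWithin_le_nhds).and
      (self_mem_nhdsWithin (s := {0}ᶜ))).exists
    have := b_two H.F (H.ee.okP i) H.eo.R5 (H.eo.lit i) (β := E.lim i x.t) (v := E.v i) h2 x.ht
      (fun t ht => by
        have := H.eo.mov i ((H.act_iff H.eo.d0 H.eo.d1).1 k) t (ht.elim (· ▸ h2) (· ▸ x.ht))
        have e' : E.lm i t = E.lm i x.t := by
          rcases ht with rfl | rfl
          · simp only [EC.lm, Prod.snd_add, Prod.smul_snd, hτ, smul_zero, add_zero]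
          · rfl
        unfold EC.lim at this ⊢
        exact e' ▸ this) z hi
    rw [add_sub_cancel_left, map_smul, Pi.smul_apply] at this
    exact (smul_eq_zero.1 this).resolve_left h3
  · have := E.o.bP τ z
    rw [indicator_of_notMem (k ⟨hi.1, H.eo.R5.trans_lt hi.2⟩)] at this
    rw [← this]
    ext a : 1
    simp [Wz78.idx_apply]

omit H in
variable (τ) in
/-- the direction -/
abbrev dr (_ : Pnt E.o r) (k : ℕ) : E.o.C r k := (ofV _ (k + 1) _ (-E.o.b τ), 0, 0, τ)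

omit H in
variable (τ) in
/-- the point of the path at the time `s` -/
structure Pv (s : ℝ) (y : Pnt E.o r) : Prop where
  t : y.t = x.t + s • τ
  pt : ∀ k, 3 ≤ k → y.pt k = x.pt k + s • dr τ x k
  cfg : y.cfg = ⟨E.o.m, chA (J.B c) E.o.m (J.G c (b.θ p U x.t)) (J.G c (b.θ p U y.t)) x.cfg.W,
    x.cfg.Φ, x.z⟩

theorem path (hτ : τ.2 = 0) : ∀ᶠ s : ℝ in 𝓝 0, ∃ y, Pv x τ s y := (ev_Q H x τ).mono fun s hs => by
  have hb := neg_mem (b_hs H x hτ)
  refine ⟨⟨x.α + s • -E.o.b τ, x.φ, x.z, x.t + s • τ, add_mem x.hα (Submodule.smul_mem _ _ hb), x.hφ,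
    hs⟩, rfl, fun k hk => C_ext H.F hk ?_ ?_ ?_, congrArg (fun w => (⟨E.o.m, w, x.cfg.Φ, x.z⟩ :
      Cg' W c lam r)) ?_⟩
  · rw [Pnt.val_α _ hk, Prod.fst_add, val_add, x.val_α hk, Prod.smul_fst, val_smul,
      val_ofV hb (by omega)]
  · rw [Pnt.val_φ _ hk, Prod.snd_add, Prod.fst_add, val_add, x.val_φ hk, Prod.smul_snd,
      Prod.smul_fst, smul_zero, val_zero, add_zero]
  · exact Prod.ext ((add_zero _).symm.trans (congrArg _ (smul_zero s).symm)) rfl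
  · refine (W_eq _ _ _).trans (.trans ?_ (congrArg _ (W_eq _ _ _).symm))
    rw [show E.o.b (x.t + s • τ) + (x.α + s • -E.o.b τ) = E.o.b x.t + x.α by
      rw [map_add, map_smul, smul_neg]; abel]
    exact (chA_coc _ _ _ _ _ _).symm

variable {q : Wi →₀ ℝ} {f : E.C → E.Y} (hf : E.Map q f) (ψ : E.K)

section der
variable {Y : Type} [NormedAddCommGroup Y] [NormedSpace ℝ Y] (L : E.Y →L[ℝ] Y) (hτ : τ.2 = 0)
include hf hτ

theorem der_pv {g : ℝ → Y} (e : ∀ s y, Pv x τ s y → L (f (y.pt 8, ψ)) = g s) :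
    HasDerivAt g (L (Ld f x ψ (dr τ x 8, 0))) 0 :=
  (L.hasFDerivAt.comp_hasDerivAt (0 : ℝ) (der_line (X := E.C) (x := (x.pt 8, ψ)) (open_C H.F) hf.sm
    ⟨x.mem_U, trivial⟩ (dr τ x 8, 0))).congr_of_eventuallyEq ((path H x hτ).mono fun s ⟨y, k⟩ =>
      (e s y k).symm.trans (congrArg (fun v => L (f v)) (Prod.ext (k.pt 8 (by norm_num))
        ((add_zero _).symm.trans (congrArg _ (smul_zero s).symm)))))

theorem der_0 (e : ∀ s y, Pv x τ s y → L (f (y.pt 8, ψ)) = L (f (x.pt 8, ψ))) :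
    L (Ld f x ψ (dr τ x 8, 0)) = 0 :=
  (der_pv H x hf ψ L hτ e).unique (hasDerivAt_const _ _)

/-- the curvature row of the derivative is smooth -/
theorem vC_hs : vC (Ld f x ψ (dr τ x 8, 0)) ∈ Mod61.Hs (b.F p U δ).F0.toPre E.o.P2 := fun k hk => by
  obtain ⟨g, h1, h2⟩ := (Map77.adj_rem H.F).rp (H.sm.aff.tot H.F H.sm.sm q) (k + 7) (by omega)
  refine ⟨_, (val_incl H.F.sup hk (by omega) (fderiv ℝ g (x.pt _) (dr τ x _)).2.1).trans
    (funext fun z => ?_)⟩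
  let L : E.Y →L[ℝ] _ := (b.F p U δ).F0.ev 8 E.o.P2 z ∘L .fst ℝ _ _ ∘L .snd ℝ _ _ ∘L .fst ℝ _ _
  have d := ((b.F p U δ).F0.ev (k + 7) E.o.P2 z).hasFDerivAt.comp_hasDerivAt (0 : ℝ)
    (der_line (isOpen_U H.F) h1 x.mem_U (dr τ x _)).snd.fst
  exact d.unique (der_pv H x hf ψ L hτ fun s y e => (congrFun (hf.e y ψ).C z).trans
    ((congrFun (h2 y).C z).symm.trans (congrArg (fun v => (b.F p U δ).F0.val _ E.o.P2 (g v).2.1 z)
      (e.pt _ (by omega)))))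

end der

variable {p' : Prt A A' h} (hp : J.POK σ c p') {y : Pnt E.o r} {s : ℝ} (k : Pv x τ s y)
  (hV : ∀ a ∈ p'.V, b.θ p U x.t a = b.θ p U y.t a) (h0 : ∀ z ∉ W.un c p'.P, x.cfg.Φ z = 0)
include hp k hV h0

/-- the rows outside do not move -/
theorem rows_out : (∀ z ∈ W.un c p'.P,
      (EC.tot b p U δ q y.t).D y.cfg z = (EC.tot b p U δ q x.t).D x.cfg z ∧
      (EC.tot b p U δ q y.t).C y.cfg z = (EC.tot b p U δ q x.t).C x.cfg z) ∧
    (EC.tot b p U δ q y.t).S y.cfg = (EC.tot b p U δ q x.t).S x.cfg ∧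
    (EC.tot b p U δ q y.t).R y.cfg = (EC.tot b p U δ q x.t).R x.cfg ∧
    ∀ i : p.H, i.1 ∈ p'.H → E.row q y i = E.row q x i := by
  have o := H.ovx x
  have o' := H.ovx y
  have hO := Job.isClopen_un (W := W) hp.pc
  have g0 := H.ok.kt H.mem o hO
  have t0 := H.ok.τ_nat H.mem o hO q
  have g := hp.kt2 H.ok H.mem o o' hV
  have t := hp.t_rel H.ok H.mem o o' hV q
  have a := x.ad0 H.F
  have k0 := cr0_refl g0.hB g0.hG hO.2 a h0
  have w := fun i z hz => chA_agr g0.hG a.conn (hp.agr H.ok H.mem o o' hV) i (x := z) hz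
  have a' := y.ad0 H.F
  obtain ⟨a1, a2, a3, a4⟩ := tot_ev (b := b) (p := p) (U := U) (δ := δ) (t := x.t) (q := q) x.cfg
  obtain ⟨b1, b2, b3, b4⟩ := tot_ev (b := b) (p := p) (U := U) (δ := δ) (t := y.t) (q := q) y.cfg
  have eW : ∀ i, ∀ z ∈ W.un c p'.P, y.cfg.W i z = x.cfg.W i z := fun i z hz =>
    (congrFun₂ (eq_of_heq (Cfg.mk.inj k.cfg).2.1) i z).trans (w i z hz)
  have eΦ : y.cfg.Φ = x.cfg.Φ := eq_of_heq (Cfg.mk.inj k.cfg).2.2.1
  have ez : y.z = x.z := (Cfg.mk.inj k.cfg).2.2.2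
  have k1 : CR0 (J.B c) (J.G c (b.θ p U x.t)) (J.B c) (J.G c (b.θ p U y.t)) (W.un c p'.P)
      (W.un c p'.P) id (fun z b a => (J.B c).P b a z) (J.B c).l x.cfg y.cfg E.o.m.p 1 :=
    ⟨a, a', h0, fun z hz => (congrFun eΦ z).trans (h0 z hz), k0.e.m, fun z hz i => by
      have := k0.e.W z hz i; simp only [id, eW _ z hz] at this ⊢; exact this,
      fun z hz => (congrFun eΦ z).trans (k0.e.Φ z hz), ez.trans k0.e.z⟩
  refine ⟨fun z hz => ⟨(b1 z).trans ((t.eD g.toLG k1 hz).trans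
      ((t0.eD g0.toLG k0 hz).symm.trans (a1 z).symm)), (b2 z).trans ((t.eC g.toLG k1 hz).trans
      ((t0.eC g0.toLG k0 hz).symm.trans (a2 z).symm))⟩,
    funext fun i => (b3 i).trans ((congrArg _ ((t.S k1 i).trans (by simp))).trans (a3 i).symm),
    b4.trans ((funext fun _ => congrArg (fun v => ‖v‖ ^ 2 - 1) ez).trans a4.symm), fun i hi => ?_⟩
  have R := Cnt93.rel_refl g.hB (H.ok.cut_sub (hp.nb i hi))
  have l := g.toLG.of_ceq k1.adm k1.adm' k1.e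
  have id : ∀ v, Cnt93.Rh (J.cut c i) (J.cut c i) (J.B c) (J.B c) E.o.m.p 1 v = v := fun v =>
    Subtype.ext ((Cnt93.coe_Rh l R 1 v).trans (by
      rw [show csE y.cfg.m.J (1 : Circle) = 1 from csL_one _]; exact Cnt93.mem_p a.ok v))
  rw [EC.row, EC.row]
  refine congrArg₂ (· - ·) (ContinuousLinearMap.ext fun v => ?_)
    (ContinuousLinearMap.ext fun v => ?_)
  · exact (congrArg _ (id v).symm).trans ((Cnt93.T_nat l R 1 (H.cut_ok H.hb x.ht i)
      (H.cut_ok H.hb y.ht i) v).trans (id _))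
  · exact (congrArg _ (id v).symm).trans ((hp.sc_rel H.ok H.mem o o' hV hi q k1 1 v).trans (id _))

omit hp hV h0 in
/-- the rows inside -/
theorem rows_in (nl : ∀ a, Nl J a) (bas : ∀ w, Bas (J.tw w)) {Ω : Set (W.Z c).M} (cl : IsClopen Ω)
    {ξ : (W.Z c).M → E.o.m.A} (hA : Ab (J.B c) (J.G c (b.θ p U x.t)) Ω x.cfg ξ) {z} (hz : z ∈ Ω) :
    (EC.tot b p U δ q y.t).D y.cfg z = 0 ∧ (EC.tot b p U δ q y.t).C y.cfg z =
      tn (aE J c q (b.θ p U y.t) (xf J c (b.θ p U x.t) x.cfg ξ) z) (ξ z) := by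
  obtain ⟨b1, b2, -⟩ := tot_ev (b := b) (p := p) (U := U) (δ := δ) (t := y.t) (q := q) y.cfg
  obtain ⟨h1, h2⟩ := trn (Λ.B_ok _ _) (H.F.G _ x.ht) (H.F.G _ y.ht) hA
  have e1 := Mp86.Lab.eD_ab (q := q) H.ok nl bas H.mem (H.ovx y) cl h1 hz
  have e2 := (Mp86.Lab.eC_ab (q := q) H.ok nl bas H.mem (H.ovx y) cl h1 hz).trans
    (congrArg (fun g => tn (aE J c q (b.θ p U y.t) g z) (ξ z)) h2)
  exact ⟨(b1 z).trans ((congrArg (fun w : Cg' W c lam r => w.eD _ _ z = 0) k.cfg).mpr e1),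
    (b2 z).trans ((congrArg (fun w : Cg' W c lam r => HEq (w.eC (J.B c) _ _ z) _) k.cfg).mpr
      (heq_of_eq e2)).eq⟩

end Crest.Agent.X212.Taf6.Lt
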