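import Crest.Agent.X212.Qab60.Hol

/-!
# Row 212, RFQ-H-MOV, analytic half (helper6): the derivative of the holonomy along a term
-/

set_option autoImplicit false
set_option linter.unusedSectionVars false
noncomputable section
open scoped Manifold ContDiff Topology InnerProductSpace
open MeasureTheory Set Function Filter
open Crest.Agent.R208.F (Ext)

namespace Crest.Agent.X212.Taf6
open An Sob92 Prm93 Qab60 Nd18 M Rf65
open Dr59 (dM)
open Fin37 (Pm tm)
open Wrd81 (TmIn)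

theorem der_fix {V : Type} [NormedAddCommGroup V] [NormedSpace ℝ V] (B : V →L[ℝ] V) (u : V)
    {k : ℝ → V} (h : ∀ᶠ t in 𝓝 (0 : ℝ), k t = t • B (u + k t)) : HasDerivAt k (B u) 0 := by
  have c : Tendsto (fun t : ℝ => |t| * ‖B‖) (𝓝 0) (𝓝 0) := by
    simpa using (continuous_abs.tendsto (0 : ℝ)).mul_const ‖B‖
  have z : Tendsto k (𝓝 0) (𝓝 0) := squeeze_zero_norm' (a := fun t => |t| * ‖B‖ * (2 * ‖u‖)) (by
    filter_upwards [h, c.eventually_le_const one_half_pos] with t e l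
    have := (congrArg norm e).trans_le ((norm_smul _ _).trans_le (mul_le_mul_of_nonneg_left
      ((B.le_opNorm _).trans (mul_le_mul_of_nonneg_left (norm_add_le _ _) (norm_nonneg _)))
      (norm_nonneg t)))
    rw [Real.norm_eq_abs] at this
    nlinarith [norm_nonneg (k t)]) (by simpa using c.mul_const (2 * ‖u‖))
  have t1 : Tendsto (fun t => B (u + k t)) (𝓝 0) (𝓝 (B u)) :=
    (B.continuous.tendsto _).comp (by simpa using z.const_add u)
  refine hasDerivAt_iff_tendsto_slope_zero.2 ((t1.mono_left nhdsWithin_le_nhds).congr' ?_)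
  filter_upwards [h.filter_mono nhdsWithin_le_nhds, self_mem_nhdsWithin] with t e (t0 : t ≠ 0)
  rw [zero_add, show k 0 = 0 by simpa using h.self_of_nhds, sub_zero]
  exact (eq_inv_smul_iff₀ t0).2 e.symm

section gen
variable {E : Type} [NormedAddCommGroup E] [NormedSpace ℝ E] [FiniteDimensional ℝ E]
  [MeasurableSpace E] [BorelSpace E]
  {HM : Type} [TopologicalSpace HM] {I : ModelWithCorners ℝ E HM} [I.Boundaryless]
  {M : Type} [TopologicalSpace M] [ChartedSpace HM M] [IsManifold I ∞ M] [T2Space M]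
  [MeasurableSpace M] [BorelSpace M] [SecondCountableTopology M] {ι : Type} [Fintype ι]
  {F : Fr I M ι} {o : ι → ι → ι → ι → M → ℝ} {Ω : Set M} {T : HK F 0 →L[ℝ] HK F 0} {ε : ℝ}

/-- a bounded left inverse -/
theorem exists_inv (h : Qab60.Pc F o Ω) (hT : Per F o Ω T ε) : ∃ P : HK F 0 →L[ℝ] HK F 0,
    ∀ k ∈ KK F Ω, P (PH F o 0 k - T k) = k := by
  let A : KK F Ω →L[ℝ] HP F o Ω := h.pr ∘L (PH F o 0 - T) ∘L (KK F Ω).subtypeL
  have e : ∀ k : KK F Ω, (A k : HK F 0) = PH F o 0 k - T k := fun k =>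
    h.pr_eq (sub_mem (h.PH_mem (π_KK h.cl k.2)) (hT.mem _ (π_KK h.cl k.2)))
  have i : A.IsInvertible := Mon62.isInvertible_of_bij ⟨(injective_iff_map_eq_zero _).2 fun k z =>
    Subtype.ext (h.uniq hT (u0 := 0) k.2 (zero_mem _)
      (by rw [zero_add, ← sub_eq_zero, ← e, z]; rfl) (by simp)),
    fun v => let ⟨k, hk, z⟩ := h.surj hT v.2; ⟨⟨k, hk⟩, Subtype.ext ((e _).trans z)⟩⟩
  exact ⟨(KK F Ω).subtypeL ∘L A.inverse ∘L h.pr, fun k hk =>
    congrArg Subtype.val (i.inverse_apply_eq.2 rfl : A.inverse (A ⟨k, hk⟩) = _)⟩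

end gen

variable {Wi : Type} {X : Mf 4} {A κ lam : Type} [Fintype A] [Fintype κ] [Fintype lam]
  [DecidableEq lam] {M : Mark X A κ} {W : World M} {N : ML M lam} {Λ : Lns W N}
  {A' h : Type} [Fintype A'] [DecidableEq A'] [Fintype h] {r n : ℕ}
  {J : Job Wi Λ A' h r n} {c : M.Cl} {R : A} {ν : Type} [Fintype ν] [DecidableEq ν]
  {Q : QT (W.Z c).E (W.Z c).M ν} {θ : (J.xs R).Y.M → Circle} {ϖ : (J.xs R).Y.M → V3}
  {q : Wi →₀ ℝ} {s : A' → ℝ} {f a : (W.Z c).M → Ext (W.Z c).E} {T T' : ℝ} {β : Wi → ℝ} {w : Wi}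

theorem aH_eq {S S' : Finset Wi} {q : Wi → ℝ} (h1 : S ⊆ S') (h2 : ∀ w ∉ S, q w = 0) :
    aH c J S' q s = aH c J S q s := by
  classical
  refine (Finset.sum_subset (Finset.filter_subset_filter _ h1) fun w k1 k2 => ?_).symm
  beta_reduce
  rw [h2 w fun k => k2 (Finset.mem_filter.2 ⟨k, wS_in k1⟩), zero_mul, zero_smul]

theorem aH_single (hw : TmIn (W.Z c).I univ (tm J c w)) (t : ℝ) :
    aH c J (q + Finsupp.single w t).support (q + Finsupp.single w t :) s =
      aH c J q.support q s + (t * J.co w s) • tmH (J.G c s).F (J.B c).o (tm J c w) := by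
  classical
  rw [← aH_eq (S' := insert w q.support) (Finsupp.support_add.trans (Finset.union_subset
      (Finset.subset_insert _ _) (Finsupp.support_single_subset.trans (by simp))))
      fun _ => Finsupp.notMem_support_iff.1,
    ← aH_eq (Finset.subset_insert w q.support) fun _ => Finsupp.notMem_support_iff.1]
  simp only [aH, smH, Finsupp.add_apply, add_mul, add_smul, Finset.sum_add_distrib]
  refine congrArg _ ((Finset.sum_eq_single w
    (fun i _ e => by rw [Finsupp.single_eq_of_ne e, zero_mul, zero_smul])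
    fun e => (e (Finset.mem_filter.2 ⟨Finset.mem_insert_self _ _, hw⟩)).elim).trans ?_)
  rw [Finsupp.single_eq_same]

open Classical in
theorem abv_insert {S : Finset Wi} (k : Abv J c R f S T) (k' : Abv J c R f {w} T') (hT : T ≤ T') :
    Abv J c R f (insert w S) T' := ⟨k'.T0, fun s ha x hx => ⟨(k'.z s ha x hx).1, fun q s' u => by
  by_cases e : w ∈ S
  · rw [Finset.insert_eq_of_mem e]; exact (k.z s ha x (hT.trans_lt hx)).2 q s' u
  · have := congrArg₂ (· + ·) ((k'.z s ha x hx).2 q s' u) ((k.z s ha x (hT.trans_lt hx)).2 q s' u)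
    rw [add_zero] at this
    rw [← this, ← Pi.add_apply]
    simp only [aF, smF, wS]
    rw [← Finset.sum_union (Finset.disjoint_filter_filter (by simpa)), ← Finset.filter_union,
      ← Finset.insert_eq]⟩⟩

/-- **the analytic half of MOV** -/
theorem mov (H : JQ J c R Q θ ϖ) (hβ : OpB J β) (hq : Ball β 0 q) (hs : Pm J c s)
    (hf : Cz (W.Z c).I (oI W c R) f) (hc : HasCompactSupport f) (has : ASj J c R q s f a) (ha)
    (k : Abv J c R f q.support T) (hT : T ≤ T') :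
    ∃ (L : HK (J.G c s).F 0 →L[ℝ] ℝ) (u : HK (J.G c s).F 0), Isf (J.G c s).F u (f + dM (W.Z c).I a) ∧
      (∃ g y, Tst J c R s ha T g ∧ Is (J.G c s).F.toPre 0 _ y g ∧ L y ≠ 0) ∧
      ∀ w, TmIn (W.Z c).I univ (tm J c w) → Abv J c R f {w} T' → J.co w s ≠ 0 →
        L (tmH (J.G c s).F (J.B c).o (tm J c w) u) ≠ 0 → ∀ Hf : ℝ → ℝ,
        (∀ᶠ t in 𝓝 (0 : ℝ), Hv J c R θ ϖ (q + Finsupp.single w t) s f (Hf t)) → deriv Hf 0 ≠ 0 := by
  classical
  have := openPos (J.G c s).F.toPre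
  have qe := H.qe s ha
  have pc := H.pc hs
  obtain ⟨j, op⟩ := hβ.op hq hs
  obtain ⟨P, hP⟩ := exists_inv pc (op.per pc.cl q4)
  obtain ⟨χ, kχ⟩ := exists_ct T'
  have k0 := kχ.mono (k.T0.trans hT)
  have hη := qe.ok.cη false
  obtain ⟨v, hv⟩ := (sq_of_hcs (F := (J.G c s).F) (qe.cz_ec k0 hη).1.sm (qe.cz_ec k0 hη).2).exists
  let ℓ : HK (J.G c s).F 0 →L[ℝ] ℝ :=
    innerSL ℝ (PH (J.G c s).F (J.B c).o 0 v - PH (J.G c s).F (ng (J.B c).o) 0 v)
  have hℓ : ∀ u b, Fo (W.Z c).I 2 b → Isf (J.G c s).F u b →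
      ℓ u = 2 * hl (kI J c R s ha) (oI W c R) χ (Q.η false) b := fun u b hb hu => by
    rw [hl, ← qe.tam.Bw_eq hu hv hb.dg, Bw, ← inner_sub_right, real_inner_comm]
    rfl
  have sf := sq_of_hcs (F := (J.G c s).F) hf.fo.sm hc
  have cf := hf.add_d pc.cl has.fo has.off
  obtain ⟨u, hu⟩ := (sf.add has.sq).exists
  refine ⟨ℓ ∘L P, u, hu, ?_, fun w hw kw c0 l0 Hf hH e => ?_⟩
  · obtain ⟨α1, α2⟩ := qe.ok.fα
    obtain ⟨y, hy⟩ := (sq_of_hcs (F := (J.G c s).F) α1.d.sm qe.hcα).exists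
    have m := mem_KK α1 α2 hy
    obtain ⟨-, s1, s2⟩ := op.rp _ _ (sm_c2 α1.d.sm) hy
    have i := is_π pc.cl ((pc.is_PH hy).sub s2)
    have mm := sub_mem (pc.PH_mem (π_KK pc.cl m)) ((op.per pc.cl q4).mem _ (π_KK pc.cl m))
    rw [mm.2] at i
    have sm := (sm_ind pc.cl).smul ((pc.cb_hs.choose_spec.1.clm_apply
      (sm_c2 (F := (J.G c s).F) α1.d.sm)).sub s1)
    refine ⟨_, _, ⟨sm, congrFun ((Continuous.ae_eq_iff_eq (J.G c s).F.μ
      (pc.cb_hs.choose_spec.1.clm_apply sm).continuous sm.continuous).1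
        ((pc.is_PH i).symm.trans (mm.1.symm ▸ i))), fun z hz => ⟨by_contra fun e => hz (by simp [e]),
      le_of_not_gt fun e => hz ?_⟩⟩, i, ?_⟩
    · have z0 := k.T0.trans_lt e
      rw [Pi.smul_apply', (k.z s ha z e).2, c2_of_zero (by
        rw [qe.ok.dα, Pi.sub_apply, qe.toEn.γ0 qe.ok _ z0, qe.toEn.γ0 qe.ok _ z0, sub_zero])]
      simp
    · obtain ⟨V, V0, hV⟩ := qe.exV
      have x0 : (Q.x : ℝ) ≠ 0 := Int.cast_ne_zero.2 fun e => by simpa [e] using qe.ok.odd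
      rw [ContinuousLinearMap.comp_apply, hP _ m, hℓ _ _ α1.d hy]
      exact mul_ne_zero two_ne_zero ((qe.toEn.hl_α qe.ok hV k0 false).trans_ne
        (neg_ne_zero.2 (mul_ne_zero (div_ne_zero x0 (by positivity)) V0)))
  have sub : ∀ t, (q + Finsupp.single w t).support ⊆ insert w q.support := fun t =>
    Finsupp.support_add.trans (Finset.union_subset (Finset.subset_insert _ _)
      (Finsupp.support_single_subset.trans (by simp)))
  have bl : ∀ᶠ t in 𝓝 (0 : ℝ), Ball β 0 (q + Finsupp.single w t) :=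
    isOp_ball β 0 q hq _ _ _ ⟨{w}, fun t i hi => by
      rw [Finsupp.add_apply, Finsupp.single_eq_of_ne (by simpa using hi), add_zero], fun i => by
      simp only [Finsupp.add_apply, Finsupp.single_apply]
      split_ifs
      · simpa using (tendsto_id (x := 𝓝 (0 : ℝ))).const_add (q i)
      · simp⟩
  have key : ∀ᶠ t in 𝓝 (0 : ℝ), ∃ y, y = t • (J.co w s • P ∘L tmH _ (J.B c).o (tm J c w)) (u + y) ∧
      Hf t = -(ℓ y / 2 + hl (kI J c R s ha) (oI W c R) χ (Q.η false) (dM (W.Z c).I a)) /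
        hpr (J.xs R).D ϖ χ (aZ θ) := by
    filter_upwards [bl, hH] with t b1 b2
    obtain ⟨b, hb⟩ := H.exists_as hβ b1 hs hf hc
    obtain ⟨u', hu'⟩ := (sf.add hb.sq).exists
    obtain ⟨_, op'⟩ := hβ.op b1 hs
    have cf' := hf.add_d pc.cl hb.fo hb.off
    have e1 := (pc.ae_iff op pc.cl hu cf.fo cf.off).1 has.eq
    have e2 := (pc.ae_iff op' pc.cl hu' cf'.fo cf'.off).1 hb.eq
    have i : Isf _ (u' - u) (dM (W.Z c).I (b - a)) := by
      simpa [hb.fo.d_sub has.fo] using hu'.sub hu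
    refine ⟨u' - u, (hP _ (mem_KK (hb.fo.sub has.fo) (hb.off.sub has.off) i)).symm.trans ?_, ?_⟩
    · rw [map_sub, map_sub, e1, e2, aH_single hw, add_sub_cancel]
      simp [smul_smul]
    · rw [eq_div_iff (H.V0 hs kχ), ← (H.hv_hl hβ b1 hs hf hc (abv_insert k kw hT) (sub t) kχ hb ha
        false).1 b2, hℓ _ _ (hb.fo.sub has.fo).d i, mul_div_cancel_left₀ _ two_ne_zero,
        ← (H.en ha).hl_add k0 hη (hb.fo.sub has.fo).d has.fo.d, hb.fo.d_sub has.fo, sub_add_cancel]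
  obtain ⟨y, hy⟩ := key.choice
  have d := ((((ℓ.hasFDerivAt.comp_hasDerivAt _ (der_fix _ u (hy.mono fun _ e => e.1))).div_const
    2).add_const _).neg.div_const _ |>.congr_of_eventuallyEq (hy.mono fun _ e => e.2)).deriv
  rw [e, eq_comm, div_eq_zero_iff, neg_eq_zero, div_eq_zero_iff] at d
  simp only [smul_apply, map_smul, smul_eq_mul, mul_eq_zero, c0, false_or,
    H.V0 hs kχ, or_false, two_ne_zero] at d
  exact l0 d

end Crest.Agent.X212.Taf6
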