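import Crest.Agent.X212.Taf6.A
import Crest.Agent.X212.Sep15.QaF

/-!
# Row 212, H-TAK (helper6): pointwise derivatives; square integrable potentials have no holonomy
-/

set_option autoImplicit false
set_option linter.unusedSectionVars false
noncomputable section
open scoped Manifold ContDiff Topology InnerProductSpace
open MeasureTheory Set Function Filter
open Crest.Agent.R208.F (Ext)

namespace Crest.Agent.X212.Taf6
open An Sob92 Num57 Prm93 Qab60 Nd18
open Dr59 (dM df pm)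
open M (Mf)
open Cyf70 (IC)
open Rf65 (PR V3)

variable {E : Type} [NormedAddCommGroup E] [NormedSpace ℝ E] [FiniteDimensional ℝ E]
  [MeasurableSpace E] [BorelSpace E]
  {HM : Type} [TopologicalSpace HM] {I : ModelWithCorners ℝ E HM} [I.Boundaryless]
  {M : Type} [TopologicalSpace M] [ChartedSpace HM M] [IsManifold I ∞ M] [T2Space M]
  [MeasurableSpace M] [BorelSpace M] [SecondCountableTopology M] {lam : Type} [Fintype lam]

theorem is_der {ι : Type} [Fintype ι] {F : Fr I M ι} {x : ℝ → HK F 0} {x' : HK F 0} {t : ℝ}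
    {g : ℝ → M → V2 ι} {g' : M → V2 ι} (h : HasDerivAt x x' t)
    (hx : ∀ᶠ r in 𝓝 t, Is F.toPre 0 _ (x r) (g r)) (hg : ∀ z, HasDerivAt (g · z) (g' z) t) :
    Is F.toPre 0 _ x' g' := by
  obtain ⟨ns, n1, n2⟩ := (tendstoInMeasure_of_tendsto_Lp (((F.toL2 0 _).continuous.tendsto _).comp
    (hasDerivAt_iff_tendsto_slope.1 h))).exists_seq_tendsto_ae'
  obtain ⟨N, hN⟩ := eventually_atTop.1 ((n1.mono_right nhdsWithin_le_nhds).eventually hx)
  filter_upwards [n2, ae_all_iff.2 fun n => (((hN (n + N) (by omega)).sub hx.self_of_nhds).smul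
    (ns (n + N) - t)⁻¹ :)] with z z1 z2
  exact tendsto_nhds_unique ((z1.comp (tendsto_add_atTop_nat N)).congr z2)
    (((hasDerivAt_iff_tendsto_slope.1 (hg z)).comp n1).comp (tendsto_add_atTop_nat N))

variable {Y : Mf 3} [CompactSpace Y.M] {κ : Type} [Fintype κ] {D : YD Y.I Y.M κ lam}
  {B : Base M (Option κ) lam} {G : Geo I M (Option κ) lam} {K : Nk D B G} {Ω : Set M}
  {θ : Y.M → Circle} {ϖ : Y.M → V3} {T : ℝ} {χ : ℝ → ℝ}

open Sep15.Qa in
theorem hpr_l2 (hD : D.OK) (h : PR D.F θ ϖ) {a : Y.M × ℝ → Ext (Y.E × ℝ)} (ha : Asd D T a)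
    (hχ : Cf T χ) (hi : IntegrableOn (fun x => ‖Qab60.c1 D.Z a x‖ ^ 2) (hZ Y T) D.Z.μ) :
    hpr D ϖ χ a = 0 := by
  obtain ⟨ε, hε⟩ := exists_st hD h
  have ms : ∀ T, MeasurableSet (hZ Y T) := fun _ => MeasurableSet.univ.prod measurableSet_Ioi
  have sb : Antitone fun n : ℕ => hZ Y (T + n) := fun m n e =>
    prod_mono_right (Ioi_subset_Ioi (by gcongr))
  have l := tendsto_setIntegral_of_antitone (fun _ => ms _) sb ⟨0, by simpa using hi⟩
  rw [show ⋂ n : ℕ, hZ Y (T + n) = ∅ from eq_empty_of_forall_notMem fun x hx =>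
    let ⟨n, hn⟩ := exists_nat_ge (x.2 - T); (sub_le_iff_le_add'.1 hn).not_gt (mem_iInter.1 hx n).2,
    setIntegral_empty] at l
  have k : ∀ η > (0 : ℝ), |hpr D ϖ χ a| ≤ η * (D.F.μ.real univ * ∫ t, deriv χ t ^ 2) := fun η η0 => by
    refine le_of_le_of_eq (ge_of_tendsto' ((l.const_mul η⁻¹).const_add _) fun n => ?_)
      (by rw [mul_zero, add_zero])
    have n0 : T ≤ T + n := le_add_of_nonneg_right n.cast_nonneg
    obtain ⟨c1, -⟩ := Cf.shift hχ n
    have s0 : hZ Y (T + n) ⊆ hZ Y T := prod_mono_right (Ioi_subset_Ioi n0)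
    have c : Continuous fun t => deriv (fun t => χ (t - n)) t ^ 2 :=
      (c1.sm.continuous_deriv (by simp)).pow 2
    have i1 : Integrable (fun x : Y.M × ℝ => deriv (fun t => χ (t - n)) x.2 ^ 2) D.Z.μ :=
      (c.comp continuous_snd).integrable_of_hasCompactSupport
        (Int54.hcs_snd (c1.hc.comp_left (g := (· ^ 2)) (by simp)))
    have i2 := (integrable_indicator_iff (ms _)).2 (hi.mono_set s0)
    rw [hpr_ind hD h ha hχ (Cf.mono c1 n0), Sep15.Qa.hpr_eq hD h hε c1 (ha.dg.mono s0),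
      ← integral_sub_right_eq_self (fun t => deriv χ t ^ 2) n, ← smul_eq_mul (D.F.μ.real univ),
      ← integral_fun_snd (μ := D.F.μ), ← integral_indicator (ms _), ← integral_const_mul,
      ← integral_const_mul]
    simp only [← deriv_comp_sub_const]
    refine (Real.norm_eq_abs _).symm.trans_le ((norm_integral_le_of_norm_le (μ := D.Z.μ)
      ((i1.const_mul η).add (i2.const_mul η⁻¹)) (.of_forall fun x => ?_)).trans_eq
        (integral_add (i1.const_mul η) (i2.const_mul η⁻¹)))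
    by_cases hx : x ∈ hZ Y (T + n)
    · rw [norm_mul, norm_mul, Real.norm_eq_abs, Real.norm_eq_abs ε, Pi.add_apply, indicator_of_mem hx,
        (sq_eq_sq₀ (abs_nonneg ε) zero_le_one).1 (by rw [sq_abs, hε.1, one_pow]), one_mul, ← sq_abs]
      refine (mul_le_mul_of_nonneg_left (norm_inner_le_norm _ _) (abs_nonneg _)).trans ?_
      rw [norm_aZ h, mul_one, ← mul_le_mul_iff_right₀ η0, mul_add, mul_inv_cancel_left₀ η0.ne']
      nlinarith [sq_nonneg (η * |deriv (fun t => χ (t - n)) x.2| - ‖Qab60.c1 D.Z a x‖),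
        mul_nonneg (mul_nonneg η0.le (abs_nonneg (deriv (fun t => χ (t - n)) x.2)))
          (norm_nonneg (Qab60.c1 D.Z a x))]
    · simp [Cf.zero c1 hx, hx]
  refine abs_nonpos_iff.1 (ge_of_tendsto (f := fun η : ℝ => η * _) (x := 𝓝[>] 0) ?_
    (eventually_nhdsWithin_of_forall k))
  exact ((continuous_mul_const _).tendsto' 0 0 (zero_mul _)).mono_left nhdsWithin_le_nhds

theorem int_c1 (h : En K Ω) (hT : 0 ≤ T) {a : M → Ext E} (hq : MemLp (Qab60.c1 G.F a) 2 G.F.μ) :
    IntegrableOn (fun x => ‖Qab60.c1 D.Z (pm (IC Y.I) I K.ψ a) x‖ ^ 2) (hZ Y T) D.Z.μ := by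
  have i := (hq.integrable_norm_pow two_ne_zero).integrableOn (s := K.ψ.target)
  rw [IntegrableOn, show G.F.μ.restrict _ = _ from K.iso.μ.symm] at i
  refine (IntegrableOn.mono_set (i.comp_aemeasurable (K.ψ.continuousOn.aemeasurable
    K.ψ.open_source.measurableSet)) fun q hq => h.src (hT.trans_lt hq.2)).congr_fun
      (fun q hq => ?_) (MeasurableSet.univ.prod measurableSet_Ioi)
  simp only [comp, h.c1_pm (hT.trans_lt hq.2)]

end Crest.Agent.X212.Taf6
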